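import Crest.Agent.R17.E.Defs
import Crest.Agent.R17.A.Gauss
import Crest.Agent.R17.A.Count
import Crest.Agent.R17.A.Poisson

/-!
Row 17, block E: the facts about `O` used in this block.  Each one is a thin wrapper around block A
(`Crest/Agent/R17/A/*`): import A and restate.  Do not change the statements.
-/

set_option autoImplicit false

namespace Crest.Agent.R17.E

open scoped Classical ComplexConjugate

theorem nm_mul (a b : O) : nm (a * b) = nm a * nm b := by
  unfold nm nN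
  rw [← Ideal.span_singleton_mul_span_singleton, map_mul, Nat.cast_mul]

theorem nm_one : nm 1 = 1 := by
  unfold nm nN
  simp

theorem nm_zero : nm 0 = 0 := by
  unfold nm nN
  simp

theorem nm_nonneg (a : O) : 0 ≤ nm a := Nat.cast_nonneg _

theorem nm_pow (a : O) (n : ℕ) : nm (a ^ n) = nm a ^ n := by
  induction n with
  | zero => simp
  | succ n ih => rw [pow_succ, nm_mul, ih, pow_succ]

theorem one_le_nm {a : O} (ha : a ≠ 0) : 1 ≤ nm a := by
  unfold nm nN
  have : Ideal.absNorm (Ideal.span {a}) ≠ 0 := by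
    rw [Ne, Ideal.absNorm_eq_zero_iff, Ideal.span_singleton_eq_bot]; exact ha
  exact_mod_cast Nat.one_le_iff_ne_zero.2 this

theorem nm_unit {u : O} (hu : IsUnit u) : nm u = 1 := by
  unfold nm nN
  rw [Ideal.span_singleton_eq_top.2 hu]
  simp

/-- coordinates `(j, k) ↦ j + k (1 + ω)` -/
theorem exists_coord : ∃ e : ℤ × ℤ ≃ O, ∀ p : ℤ × ℤ,
    nm (e p) = ((p.1 ^ 2 + p.1 * p.2 + p.2 ^ 2 : ℤ) : ℝ) := by
  refine ⟨(Equiv.prodCongr (Equiv.refl ℤ) (Equiv.neg ℤ)).trans crd, fun p => ?_⟩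
  simp only [Equiv.trans_apply, Equiv.prodCongr_apply, crd_apply, Prod.map, Equiv.refl_apply,
    Equiv.neg_apply]
  rw [nm_coord]
  push_cast
  ring

theorem finite_nm (X : ℝ) : {n : O | nm n ≤ X}.Finite := by
  exact finite_nm_le X

theorem card_le : ∃ C : ℝ, 0 < C ∧ ∀ (X : ℝ) (B : Finset O), 0 ≤ X →
    (∀ b ∈ B, b ≠ 0 ∧ nm b ≤ X) → (B.card : ℝ) ≤ C * X := by
  exact ⟨11, by norm_num, fun X B hX h => card_le_of_nm_le hX h⟩

/-- the six units -/
theorem exists_units : ∃ U : Finset O, U.card = 6 ∧ ∀ u, u ∈ U ↔ IsUnit u := by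
  refine ⟨(Finset.range 6).image (zt ^ ·), ?_, fun u => ?_⟩
  · rw [Finset.card_image_of_injOn, Finset.card_range]
    intro i hi j hj h
    exact zt_pow_inj (Finset.mem_range.1 hi) (Finset.mem_range.1 hj) h
  · rw [isUnit_iff]
    simp [eq_comm]

theorem prime_lam : Prime lam := by
  exact R17.prime_lam

theorem prime_two : Prime (2 : O) := by
  exact R17.prime_two

theorem Prim.not_lam_dvd {a : O} (ha : Prim a) : ¬ lam ∣ a := by
  exact R17.Prim.not_lam_dvd ha

theorem prim_assoc {a b : O} (ha : Prim a) (hb : Prim b) (h : Associated a b) : a = b := by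
  exact ha.eq_of_associated hb h

theorem exists_prim {n : O} (hn : ¬ lam ∣ n) : ∃ u n₀ : O, IsUnit u ∧ Prim n₀ ∧ n = u * n₀ := by
  exact exists_unit_prim hn

theorem finite_quot {Q : O} (hQ : Q ≠ 0) : Finite (O ⧸ Ideal.span {Q}) := by
  exact R17.finite_quot hQ

/-! ### the quadratic symbol -/

theorem qd_mul_left (u v n : O) : qd (u * v) n = qd u n * qd v n := by
  rw [qd, sx_mul_left, mul_pow]; rfl

theorem qd_mul_right (u m n : O) : qd u (m * n) = qd u m * qd u n := by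
  rw [qd, sx_mul_right, mul_pow]; rfl

theorem qd_one_right (u : O) : qd u 1 = 1 := by
  rw [qd, sx_one_right, one_pow]

theorem qd_prime {p : O} (hp : IsP p) (u : O) :
    (p ∣ u ∧ qd u p = 0) ∨ (¬ p ∣ u ∧ (qd u p = 1 ∨ qd u p = -1)) := by
  have h6 := hp.2.1.coprime_six hp.2.2
  have h0 := sx_prime_eq_zero (u := u) hp.1 h6
  by_cases h : p ∣ u
  · exact Or.inl ⟨h, by rw [qd, h0.2 h]; norm_num⟩
  · refine Or.inr ⟨h, ?_⟩
    rcases sx_cube_eq_or u p with h1 | h1
    · exact absurd (h0.1 (pow_eq_zero_iff (by norm_num) |>.1 h1)) h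
    · exact h1

/-- `qd u p = sxp u p ^ 3` and `sxp u p` only depends on `u mod p` -/
theorem qd_per {p : O} (hp : IsP p) {u v : O} (h : p ∣ u - v) : qd u p = qd v p := by
  have := hp
  rw [qd, qd, sx_congr h]

/-- quadratic reciprocity; `η a b = if a, b odd then eps a b else 0` -/
theorem qd_recip : ∃ η : O → O → ℂ, (∀ a b, ‖η a b‖ ≤ 1) ∧
    (∀ a a' b, (4 : O) ∣ a - a' → η a b = η a' b) ∧
    ∀ a b, Prim a → Prim b → IsCoprime a 2 → IsCoprime b 2 → qd a b = η a b * qd b a := by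
  refine ⟨fun a b => if IsCoprime a 2 ∧ IsCoprime b 2 then eps a b else 0, fun a b => ?_,
    fun a a' b h => ?_, fun a b ha hb ha2 hb2 => ?_⟩
  · beta_reduce
    split_ifs with h
    · rw [norm_eps h.1 h.2]
    · simp
  · have h2 : (2 : O) ∣ a - a' := Dvd.dvd.trans ⟨2, by norm_num⟩ h
    have hiff : IsCoprime a 2 ↔ IsCoprime a' 2 := by
      rw [coprime_two_iff, coprime_two_iff]
      refine not_congr ⟨fun h' => ?_, fun h' => ?_⟩
      · simpa using dvd_sub h' h2
      · simpa using dvd_add h2 h'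
    beta_reduce
    by_cases hc : IsCoprime a 2 ∧ IsCoprime b 2
    · rw [if_pos hc, if_pos ⟨hiff.1 hc.1, hc.2⟩]
      exact eps_congr hc.1 hc.2 h (by simp)
    · rw [if_neg hc, if_neg fun h' => hc ⟨hiff.2 h'.1, h'.2⟩]
  · beta_reduce
    rw [if_pos ⟨ha2, hb2⟩, qd, qd, sx_cube_recip (ha.coprime_six ha2) (hb.coprime_six hb2), mul_comm]

/-- Poisson summation (A0) -/
theorem poisson {Q : O} (hQ : Q ≠ 0) (Ψ : O → ℂ) (hΨ : ∀ a b, Q ∣ a - b → Ψ a = Ψ b) {K : ℝ}
    (hK : 0 < K) :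
    ∑' k : O, Ψ k * (gw K k : ℂ) =
      ((K / nm Q : ℝ) : ℂ) * ∑' h : O, FT Q Ψ h * (gw (nm Q / K) h : ℂ) := by
  exact R17.poisson hQ hΨ hK

/-- the quadratic Gauss sum when `(-1/q) = 1` (root number one):
`gs 3 h q = (h/q) gs 3 1 q`, `gs 3 1 q = gam q √N q`, `gam q² = (-1/q)`; `gam` depends on `q mod 4`
and is invariant under `q ↦ q ω`; the odd classes modulo 4 and `ω` are `1, -1, λ, -λ`;
`gam 1 = gam (-1) = 1`, `gam (±λ)² = -1`. -/
theorem gauss_qd {q : O} (h1 : Prim q) (h2 : Squarefree q) (h3 : IsCoprime q 2)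
    (h4 : qd (-1) q = 1) (h : O) :
    FT q (fun y => qd y q) h = qd h q * (Real.sqrt (nm q) : ℂ) := by
  have h6 := h1.coprime_six h3
  have hg : gam q = 1 := by
    refine gam_eq_one h3 ?_
    rw [gam_sq' h6, ← sx_neg_one_cube]
    exact h4
  have := gs_sqfree h2 (j := 3) (by norm_num) h
  rw [gs_three h2 h6, hg, one_mul, ← map_pow, conj_sx_cube] at this
  exact this

end Crest.Agent.R17.E
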