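import Crest.Agent.R17.E.Defs

/-!
Row 17, block E: a function holomorphic in a horizontal strip with exponential decay is the Fourier
transform of an integrable function.  Cauchy estimates on circles of radius `η/2`
(`Complex.norm_iteratedDeriv_le_of_forall_mem_sphere_norm_le` or `norm_deriv_le_…` twice) show that
`f = g ∘ ofReal`, `f'`, `f''` are `O(exp (-δ|x|))`, hence integrable; `Real.fourier_iteratedDeriv`
(or `Real.fourier_deriv` twice) gives `(1 + t²) ‖𝓕 f t‖ ≤ C`, so `𝓕 f` is integrable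
(`integrable_inv_one_add_sq`); `Continuous.fourierInv_fourier_eq`; rescale `t ↦ t/(2π)`
(`MeasureTheory.Measure.integral_comp_mul_left`), `ρ t = 𝓕 f (t/(2π)) / (2π)`.
-/

set_option autoImplicit false

namespace Crest.Agent.R17.E

open scoped Classical ComplexConjugate

open MeasureTheory

open scoped FourierTransform

theorem strip_isOpen (η : ℝ) : IsOpen {z : ℂ | |z.im| < η} :=
  isOpen_lt (by fun_prop) continuous_const

theorem strip_deriv (g : ℂ → ℂ) {η δ C : ℝ} (hη : 0 < η) (hδ : 0 < δ)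
    (hg : DifferentiableOn ℂ g {z | |z.im| < η})
    (hb : ∀ z : ℂ, |z.im| < η → ‖g z‖ ≤ C * Real.exp (-(δ * |z.re|))) :
    DifferentiableOn ℂ (deriv g) {z | |z.im| < η / 2} ∧
      ∃ C' : ℝ, ∀ z : ℂ, |z.im| < η / 2 → ‖deriv g z‖ ≤ C' * Real.exp (-(δ * |z.re|)) := by
  have hC : 0 ≤ C := by
    have h := (norm_nonneg _).trans (hb 0 (by simpa using hη))
    simpa using h
  refine ⟨(hg.deriv (strip_isOpen η)).mono fun z (hz : |z.im| < η / 2) =>
    show |z.im| < η by linarith, C * Real.exp (δ * (η / 2)) / (η / 2), fun c hc => ?_⟩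
  have hsub : Metric.closedBall c (η / 2) ⊆ {z | |z.im| < η} := by
    intro z hz
    have h1 : |(z - c).im| ≤ η / 2 :=
      (Complex.abs_im_le_norm _).trans (mem_closedBall_iff_norm.mp hz)
    have h2 : |z.im| ≤ |(z - c).im| + |c.im| := by
      rw [Complex.sub_im]
      simpa using abs_add_le (z.im - c.im) c.im
    show |z.im| < η
    linarith
  have h := Complex.norm_deriv_le_of_forall_mem_sphere_norm_le (f := g) (c := c) (half_pos hη)
    (C := C * Real.exp (δ * (η / 2)) * Real.exp (-(δ * |c.re|))) (hg.diffContOnCl_ball hsub) ?_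
  · rw [div_mul_eq_mul_div]; exact h
  · intro z hz
    refine (hb z (hsub (Metric.sphere_subset_closedBall hz))).trans ?_
    rw [mul_assoc, ← Real.exp_add]
    refine mul_le_mul_of_nonneg_left (Real.exp_le_exp.mpr ?_) hC
    have h1 : |(c - z).re| ≤ η / 2 := by
      refine (Complex.abs_re_le_norm _).trans ?_
      rw [norm_sub_rev]
      exact (mem_sphere_iff_norm.mp hz).le
    have h2 : |c.re| ≤ |(c - z).re| + |z.re| := by
      rw [Complex.sub_re]
      simpa using abs_add_le (c.re - z.re) z.re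
    nlinarith

theorem strip_hasDerivAt (g : ℂ → ℂ) {η : ℝ} (hη : 0 < η)
    (hg : DifferentiableOn ℂ g {z | |z.im| < η}) (x : ℝ) :
    HasDerivAt (fun y : ℝ => g y) (deriv g x) x :=
  (hg.differentiableAt ((strip_isOpen η).mem_nhds (by simpa using hη))).hasDerivAt.comp_ofReal

theorem strip_integrable_exp {δ : ℝ} (hδ : 0 < δ) :
    Integrable fun x : ℝ => Real.exp (-(δ * |x|)) := by
  rw [← integrableOn_univ, ← Set.Iic_union_Ioi (a := 0)]
  refine IntegrableOn.union ?_ ?_
  · refine (integrableOn_exp_mul_Iic hδ 0).congr_fun (fun x hx => ?_) measurableSet_Iic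
    simp only [abs_of_nonpos (show x ≤ 0 from hx), mul_neg, neg_neg]
  · refine (exp_neg_integrableOn_Ioi 0 hδ).congr_fun (fun x hx => ?_) measurableSet_Ioi
    simp only [abs_of_pos (show 0 < x from hx), neg_mul]

theorem strip_integrable (g : ℂ → ℂ) {η δ C : ℝ} (hη : 0 < η) (hδ : 0 < δ)
    (hg : DifferentiableOn ℂ g {z | |z.im| < η})
    (hb : ∀ z : ℂ, |z.im| < η → ‖g z‖ ≤ C * Real.exp (-(δ * |z.re|))) :
    Integrable fun x : ℝ => g x := by
  have hc : Continuous fun x : ℝ => g x :=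
    continuous_iff_continuousAt.mpr fun x => (strip_hasDerivAt g hη hg x).continuousAt
  refine ((strip_integrable_exp hδ).const_mul C).mono' hc.aestronglyMeasurable
    (Filter.Eventually.of_forall fun x => ?_)
  simpa using hb x (by simpa using hη)

theorem strip_norm_fourier (f : ℝ → ℂ) (t : ℝ) : ‖𝓕 f t‖ ≤ ∫ x, ‖f x‖ :=
  VectorFourier.norm_fourierIntegral_le_integral_norm _ _ _ _ _

theorem strip_rep (g : ℂ → ℂ) {η δ C : ℝ} (hη : 0 < η) (hδ : 0 < δ)
    (hg : DifferentiableOn ℂ g {z | |z.im| < η})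
    (hb : ∀ z : ℂ, |z.im| < η → ‖g z‖ ≤ C * Real.exp (-(δ * |z.re|))) :
    ∃ ρ : ℝ → ℂ, Integrable ρ ∧
      ∀ u : ℝ, g u = ∫ t : ℝ, Complex.exp (Complex.I * u * t) * ρ t := by
  obtain ⟨hg1, C₁, hb1⟩ := strip_deriv g hη hδ hg hb
  obtain ⟨hg2, C₂, hb2⟩ := strip_deriv (deriv g) (half_pos hη) hδ hg1 hb1
  have i0 := strip_integrable g hη hδ hg hb
  have i1 := strip_integrable _ (half_pos hη) hδ hg1 hb1
  have i2 := strip_integrable _ (half_pos (half_pos hη)) hδ hg2 hb2
  have d0 := strip_hasDerivAt g hη hg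
  have d1 := strip_hasDerivAt _ (half_pos hη) hg1
  set f₀ : ℝ → ℂ := fun x => g x with hf₀
  set f₁ : ℝ → ℂ := fun x => deriv g x with hf₁
  set f₂ : ℝ → ℂ := fun x => deriv (deriv g) x with hf₂
  have e0 : deriv f₀ = f₁ := funext fun x => (d0 x).deriv
  have e1 : deriv f₁ = f₂ := funext fun x => (d1 x).deriv
  have F0 := Real.fourier_deriv i0 (fun x => (d0 x).differentiableAt) (e0 ▸ i1)
  have F1 := Real.fourier_deriv i1 (fun x => (d1 x).differentiableAt) (e1 ▸ i2)
  rw [e0] at F0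
  rw [e1, F0] at F1
  have hc0 : Continuous f₀ := continuous_iff_continuousAt.mpr fun x => (d0 x).continuousAt
  have hcF : Continuous (𝓕 f₀) :=
    VectorFourier.fourierIntegral_continuous Real.continuous_fourierChar (innerSL ℝ).continuous₂ i0
  have hF : Integrable (𝓕 f₀) := by
    refine (integrable_inv_one_add_sq.const_mul ((∫ x, ‖f₀ x‖) + ∫ x, ‖f₂ x‖)).mono'
      hcF.aestronglyMeasurable (Filter.Eventually.of_forall fun t => ?_)
    have h0 := strip_norm_fourier f₀ t
    have h2 := strip_norm_fourier f₂ t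
    have h3 : ‖𝓕 f₂ t‖ = (2 * Real.pi) ^ 2 * (t ^ 2 * ‖𝓕 f₀ t‖) := by
      rw [F1]
      simp only [smul_eq_mul, norm_mul, Complex.norm_two, Complex.norm_real, Complex.norm_I,
        Real.norm_eq_abs, abs_of_pos Real.pi_pos]
      rw [← sq_abs t]
      ring
    have h4 : (1 : ℝ) ≤ (2 * Real.pi) ^ 2 := by nlinarith [Real.pi_gt_three]
    have h5 : 0 ≤ t ^ 2 * ‖𝓕 f₀ t‖ := by positivity
    rw [← div_eq_mul_inv, le_div_iff₀ (by positivity)]
    nlinarith
  have hπ : (2 * Real.pi) ≠ 0 := by positivity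
  refine ⟨fun t => ((2 * Real.pi)⁻¹ : ℝ) • 𝓕 f₀ ((2 * Real.pi)⁻¹ * t),
    (hF.comp_mul_left' (inv_ne_zero hπ)).smul ((2 * Real.pi)⁻¹ : ℝ), fun u => ?_⟩
  have h := congrFun (hc0.fourierInv_fourier_eq i0 hF) u
  rw [Real.fourierInv_eq'] at h
  have h2 := Measure.integral_comp_mul_left
    (fun v : ℝ => Complex.exp ((2 * Real.pi * inner ℝ v u : ℝ) * Complex.I) • 𝓕 f₀ v) (2 * Real.pi)⁻¹
  rw [h, inv_inv, abs_of_pos Real.two_pi_pos] at h2
  have h3 : g u = ((2 * Real.pi)⁻¹ : ℝ) • ((2 * Real.pi : ℝ) • f₀ u) := by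
    rw [smul_smul, inv_mul_cancel₀ hπ, one_smul]
  rw [h3, ← h2, ← integral_smul]
  refine integral_congr_ae (Filter.Eventually.of_forall fun t => ?_)
  have h4 : (2 * Real.pi * inner ℝ ((2 * Real.pi)⁻¹ * t) u : ℝ) = u * t := by
    simp only [RCLike.inner_apply, conj_trivial]
    field_simp
  simp only [h4, smul_eq_mul, Complex.real_smul]
  push_cast
  ring_nf

end Crest.Agent.R17.E
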