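import Crest.Agent.R17.E.Sup
import Crest.Agent.R17.E.Strip

/-!
Row 17, block E: Mellin representation of the remainder `Rm` on the lines `0 < σ < 1/2`.
-/

set_option autoImplicit false

namespace Crest.Agent.R17.E

open scoped Classical ComplexConjugate

open MeasureTheory

theorem mel_term {u : ℂ} (hu : |u.im| ≤ Real.pi / 4) {x : ℝ} (hx : x ≤ cc / 2 * Real.exp (-u.re))
    (v : O) : ‖(if v = 0 then 0 else Complex.exp (-(cc * nm v ^ 2 * Complex.exp (-u))) : ℂ)‖ ≤
      if v = 0 then 0 else Real.exp (-(x * nm v)) := by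
  split_ifs with hv
  · simp
  · have h1 := one_le_nm hv
    have h2 : 1 / 2 ≤ Real.cos u.im := by
      rw [← Real.cos_abs, ← Real.cos_pi_div_three]
      exact Real.cos_le_cos_of_nonneg_of_le_pi (abs_nonneg _) (by linarith [Real.pi_pos])
        (by linarith [Real.pi_pos])
    have h3 : (-(cc * nm v ^ 2 * Complex.exp (-u)) : ℂ).re =
        -(cc * nm v ^ 2 * (Real.exp (-u.re) * Real.cos u.im)) := by
      rw [← Complex.ofReal_pow, ← Complex.ofReal_mul, Complex.neg_re, Complex.re_ofReal_mul,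
        Complex.exp_re, Complex.neg_re, Complex.neg_im, Real.cos_neg]
    rw [Complex.norm_exp, h3, Real.exp_le_exp, neg_le_neg_iff]
    have h4 := Real.exp_pos (-u.re)
    have h5 := cc_pos
    calc x * nm v ≤ cc / 2 * Real.exp (-u.re) * nm v := by gcongr
      _ = cc * nm v * (Real.exp (-u.re) * (1 / 2)) := by ring
      _ ≤ cc * nm v ^ 2 * (Real.exp (-u.re) * Real.cos u.im) := by
        gcongr
        nlinarith

theorem mel_summable {x : ℝ} (hx : 0 < x) :
    Summable fun v : O => if v = 0 then 0 else Real.exp (-(x * nm v)) := by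
  refine Summable.of_nonneg_of_le (fun v => ?_) (fun v => ?_) (summable_exp hx)
  · split_ifs <;> positivity
  · split_ifs
    · positivity
    · exact le_rfl

/-- `Re e^{-u} = e^{-Re u} cos (Im u) ≥ e^{-Re u} / 2`, `N(v)² ≥ N(v)`, `tsum_exp_le` -/
theorem norm_ThC_le : ∃ C : ℝ, ∀ u : ℂ, |u.im| ≤ Real.pi / 4 → ‖ThC u‖ ≤ C * Real.exp u.re := by
  obtain ⟨C, -, hC⟩ := tsum_exp_le
  refine ⟨2 * C / cc, fun u hu => ?_⟩
  have h5 := cc_pos
  have hx : 0 < cc / 2 * Real.exp (-u.re) := by positivity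
  refine (tsum_of_norm_bounded (mel_summable hx).hasSum (mel_term hu le_rfl)).trans
    ((hC _ hx).trans_eq ?_)
  rw [Real.exp_neg]
  field_simp

/-- `differentiableOn_tsum_of_summable_norm` on the open sets `|Im u| < π/4`, `Re u < R` -/
theorem ThC_diff : DifferentiableOn ℂ ThC {u | |u.im| < Real.pi / 4} := by
  intro u hu
  have h5 := cc_pos
  have hx : 0 < cc / 2 * Real.exp (-(u.re + 1)) := by positivity
  have hU : IsOpen {z : ℂ | |z.im| < Real.pi / 4 ∧ z.re < u.re + 1} :=
    (isOpen_lt Complex.continuous_im.abs continuous_const).and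
      (isOpen_lt Complex.continuous_re continuous_const)
  have h1 := Complex.differentiableOn_tsum_of_summable_norm (mel_summable hx)
    (F := fun (v : O) (z : ℂ) =>
      if v = 0 then 0 else Complex.exp (-(cc * nm v ^ 2 * Complex.exp (-z))))
    (fun v => by
      split_ifs
      · exact differentiableOn_const _
      · exact Differentiable.differentiableOn (by fun_prop)) hU
    (fun v z hz => mel_term hz.1.le (by
      have := hz.2.le
      gcongr) v)
  exact (h1.differentiableAt (hU.mem_nhds ⟨hu, lt_add_one _⟩)).differentiableWithinAt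

theorem ThC_log {Y : ℝ} (hY : 0 < Y) : ThC (Real.log Y : ℝ) = (Th Y : ℂ) := by
  rw [ThC, Th, Complex.ofReal_tsum]
  refine tsum_congr fun v => ?_
  split_ifs
  · simp
  · rw [← Complex.ofReal_neg, ← Complex.ofReal_exp, Real.exp_neg, Real.exp_log hY]
    push_cast
    rw [div_eq_mul_inv]

/-- `strip_rep` for `g u = e^{-σ u} (ThC u - kp e^{u/2})`, `δ = min σ (1/2 - σ)`; `u = log Y` -/
theorem mellin_Rm {σ : ℝ} (h0 : 0 < σ) (h1 : σ < 1 / 2) : ∃ ρ : ℝ → ℂ, Integrable ρ ∧
    ∀ Y : ℝ, 0 < Y → (Rm Y : ℂ) = ∫ t : ℝ, (Y : ℂ) ^ ((σ : ℂ) + t * Complex.I) * ρ t := by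
  obtain ⟨C₁, hC₁⟩ := norm_ThC_sub
  obtain ⟨C₂, hC₂⟩ := norm_ThC_le
  have hkp : 0 ≤ kp := by unfold kp; positivity
  have hδ : 0 < min σ (1 / 2 - σ) := lt_min h0 (by linarith)
  obtain ⟨ρ, hρ, hrep⟩ := strip_rep
    (fun u => Complex.exp (-(σ * u)) * (ThC u - kp * Complex.exp (u / 2)))
    (η := Real.pi / 4) (C := |C₁| + (|C₂| + kp)) (by positivity) hδ
    ((Differentiable.differentiableOn (by fun_prop)).mul
      (ThC_diff.sub (Differentiable.differentiableOn (by fun_prop))))
    (fun z hz => by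
      have e1 : ‖Complex.exp (-(σ * z))‖ = Real.exp (-(σ * z.re)) := by
        rw [Complex.norm_exp, Complex.neg_re, Complex.re_ofReal_mul]
      rw [norm_mul, e1, mul_comm]
      rcases le_total 0 z.re with hr | hr
      · refine mul_le_mul ((hC₁ z hz.le).trans ?_) ?_ (by positivity) (by positivity)
        · have := le_abs_self C₁
          have := abs_nonneg C₂
          linarith
        · rw [abs_of_nonneg hr, Real.exp_le_exp, neg_le_neg_iff]
          exact mul_le_mul_of_nonneg_right (min_le_left _ _) hr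
      · have e2 : ‖(kp : ℂ) * Complex.exp (z / 2)‖ = kp * Real.exp (z.re / 2) := by
          rw [norm_mul, Complex.norm_exp, Complex.norm_real, Real.norm_of_nonneg hkp,
            Complex.div_ofNat_re]
        have e3 : C₂ * Real.exp z.re ≤ |C₂| * Real.exp (z.re / 2) :=
          mul_le_mul (le_abs_self _) (Real.exp_le_exp.2 (by linarith)) (by positivity)
            (abs_nonneg _)
        have e4 : ‖ThC z - kp * Complex.exp (z / 2)‖ ≤ (|C₂| + kp) * Real.exp (z.re / 2) := by
          refine (norm_sub_le _ _).trans ?_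
          rw [e2, add_mul]
          exact add_le_add ((hC₂ z hz.le).trans e3) le_rfl
        have e5 : Real.exp (z.re / 2) * Real.exp (-(σ * z.re)) ≤
            Real.exp (-(min σ (1 / 2 - σ) * |z.re|)) := by
          rw [← Real.exp_add, Real.exp_le_exp, abs_of_nonpos hr]
          nlinarith [min_le_right σ (1 / 2 - σ)]
        calc ‖ThC z - kp * Complex.exp (z / 2)‖ * Real.exp (-(σ * z.re))
            ≤ (|C₂| + kp) * Real.exp (z.re / 2) * Real.exp (-(σ * z.re)) := by gcongr
          _ = (|C₂| + kp) * (Real.exp (z.re / 2) * Real.exp (-(σ * z.re))) := by ring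
          _ ≤ (|C₁| + (|C₂| + kp)) * Real.exp (-(min σ (1 / 2 - σ) * |z.re|)) :=
            mul_le_mul (by linarith [abs_nonneg C₁]) e5 (by positivity) (by positivity))
  refine ⟨ρ, hρ, fun Y hY => ?_⟩
  have h2 := hrep (Real.log Y)
  have h3 : Complex.exp ((Real.log Y : ℝ) / 2) = (Real.sqrt Y : ℝ) := by
    rw [Real.sqrt_eq_rpow, Real.rpow_def_of_pos hY]
    push_cast
    ring_nf
  simp only [ThC_log hY, h3] at h2
  have h4 : (Rm Y : ℂ) = Complex.exp (σ * (Real.log Y : ℝ)) *
      (Complex.exp (-(σ * (Real.log Y : ℝ))) * (Th Y - kp * (Real.sqrt Y : ℝ))) := by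
    rw [← mul_assoc, ← Complex.exp_add, add_neg_cancel, Complex.exp_zero, one_mul, Rm]
    push_cast
    rfl
  rw [h4, h2, ← integral_const_mul]
  refine integral_congr_ae (Filter.Eventually.of_forall fun t => ?_)
  simp only
  rw [← mul_assoc, ← Complex.exp_add, Complex.cpow_def_of_ne_zero (Complex.ofReal_ne_zero.2 hY.ne'),
    ← Complex.ofReal_log hY.le]
  congr 2
  ring

end Crest.Agent.R17.E
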