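import Crest.Agent.R17.E.Cols
import Crest.Agent.R17.E.Mel

/-!
Row 17, block E: bilinear forms.
-/

set_option autoImplicit false

namespace Crest.Agent.R17.E

open scoped Classical ComplexConjugate

open MeasureTheory

/-- the coefficients restricted to the columns containing `j` -/
noncomputable def bil0_cut (a : Finset O → ℂ) (j : Finset O) (m : Finset O) : ℂ :=
  if j ⊆ m then a m else 0

/-- `[Disjoint m₁ m₂] = ∑_{j ⊆ m₁ ∩ m₂} (-1)^|j|` (`Finset.sum_powerset_neg_one_pow_card`); with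
`J = C.biUnion powerset` and `aᵢʲ m = if j ⊆ m then aᵢ m else 0` the form is
`∑_{j ∈ J} (-1)^|j| ∑_b η b · As C a₁ʲ b · As C a₂ʲ b`; `‖x y‖ ≤ (‖x‖² + ‖y‖²)/2`;
`∑_j nsq C aʲ = ∑_m 2^|m| ‖a m‖²`. -/
theorem bil0 {N Bd d : ℝ} {B : Finset O} {w : O → ℝ} (h : RowW N B w Bd) (hBd : 0 ≤ Bd)
    {C : Finset (Finset O)} (hC : Cols N C) (hd : ∀ m ∈ C, (2 : ℝ) ^ m.card ≤ d)
    (η : O → ℂ) (hη : ∀ b ∈ B, ‖η b‖ ≤ w b) (a₁ a₂ : Finset O → ℂ) :
    ‖Bi C a₁ a₂ fun Q => ∑ b ∈ B, η b * ch Q b‖ ≤ Bd * d * (nsq C a₁ + nsq C a₂) := by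
  set J : Finset (Finset O) := C.biUnion Finset.powerset with hJ
  have hfil : ∀ m ∈ C, ∀ S ⊆ m, J.filter (· ⊆ S) = S.powerset := by
    intro m hm S hS
    ext j
    simp only [hJ, Finset.mem_filter, Finset.mem_biUnion, Finset.mem_powerset]
    exact ⟨fun h => h.2, fun h => ⟨⟨m, hm, h.trans hS⟩, h⟩⟩
  -- the identity
  have hid : (Bi C a₁ a₂ fun Q => ∑ b ∈ B, η b * ch Q b) =
      ∑ j ∈ J, (-1 : ℂ) ^ j.card * ∑ b ∈ B, η b *
        (As C (bil0_cut a₁ j) b * As C (bil0_cut a₂ j) b) := by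
    have hR : ∀ j : Finset O, (-1 : ℂ) ^ j.card * ∑ b ∈ B, η b *
        (As C (bil0_cut a₁ j) b * As C (bil0_cut a₂ j) b) =
        ∑ m₁ ∈ C, ∑ m₂ ∈ C, (if j ⊆ m₁ ∩ m₂ then (-1 : ℂ) ^ j.card else 0) *
          (a₁ m₁ * a₂ m₂ * ∑ b ∈ B, η b * (ch m₁ b * ch m₂ b)) := by
      intro j
      simp only [As, Finset.sum_mul_sum]
      simp only [Finset.mul_sum]
      rw [Finset.sum_comm]
      refine Finset.sum_congr rfl fun m₁ _ => ?_
      rw [Finset.sum_comm]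
      refine Finset.sum_congr rfl fun m₂ _ => Finset.sum_congr rfl fun b _ => ?_
      simp only [bil0_cut, Finset.subset_inter_iff]
      by_cases h1 : j ⊆ m₁ <;> by_cases h2 : j ⊆ m₂ <;> simp [h1, h2]
      ring
    simp only [hR]
    rw [Bi, Finset.sum_comm (s := J)]
    refine Finset.sum_congr rfl fun m₁ hm₁ => ?_
    rw [Finset.sum_comm (s := J)]
    refine Finset.sum_congr rfl fun m₂ _ => ?_
    rw [← Finset.sum_mul, ← Finset.sum_filter, hfil m₁ hm₁ _ Finset.inter_subset_left]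
    have h1 : ∑ j ∈ (m₁ ∩ m₂).powerset, (-1 : ℂ) ^ j.card = if m₁ ∩ m₂ = ∅ then 1 else 0 := by
      have := congrArg (Int.cast : ℤ → ℂ) (Finset.sum_powerset_neg_one_pow_card (x := m₁ ∩ m₂))
      push_cast at this
      exact this
    rw [h1]
    by_cases hd : Disjoint m₁ m₂
    · rw [if_pos hd, if_pos (Finset.disjoint_iff_inter_eq_empty.1 hd), one_mul]
      simp only [ch_union hd]
    · rw [if_neg hd, if_neg fun h => hd (Finset.disjoint_iff_inter_eq_empty.2 h), zero_mul]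
  -- the sum of the squared norms of the cut coefficients
  have hcut : ∀ a : Finset O → ℂ, ∑ j ∈ J, nsq C (bil0_cut a j) ≤ d * nsq C a := by
    intro a
    simp only [nsq]
    rw [Finset.sum_comm, Finset.mul_sum]
    refine Finset.sum_le_sum fun m hm => ?_
    have : ∀ j : Finset O, ‖bil0_cut a j m‖ ^ 2 = if j ⊆ m then ‖a m‖ ^ 2 else 0 := by
      intro j
      unfold bil0_cut
      split_ifs <;> simp
    simp only [this]
    rw [← Finset.sum_filter, hfil m hm m subset_rfl, Finset.sum_const, Finset.card_powerset,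
      nsmul_eq_mul]
    push_cast
    exact mul_le_mul_of_nonneg_right (hd m hm) (by positivity)
  rw [hid]
  refine (norm_sum_le _ _).trans ?_
  have hj : ∀ j ∈ J, ‖(-1 : ℂ) ^ j.card * ∑ b ∈ B, η b *
      (As C (bil0_cut a₁ j) b * As C (bil0_cut a₂ j) b)‖ ≤
      Bd * (nsq C (bil0_cut a₁ j) + nsq C (bil0_cut a₂ j)) := by
    intro j _
    rw [norm_mul, norm_pow, norm_neg, norm_one, one_pow, one_mul, mul_add]
    refine (norm_sum_le _ _).trans (le_trans ?_ (add_le_add (h C _ hC) (h C _ hC)))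
    rw [← Finset.sum_add_distrib]
    refine Finset.sum_le_sum fun b hb => ?_
    rw [norm_mul, norm_mul, ← mul_add]
    refine mul_le_mul (hη b hb) ?_ (by positivity) ((norm_nonneg _).trans (hη b hb))
    nlinarith [sq_nonneg (‖As C (bil0_cut a₁ j) b‖ - ‖As C (bil0_cut a₂ j) b‖),
      mul_nonneg (norm_nonneg (As C (bil0_cut a₁ j) b)) (norm_nonneg (As C (bil0_cut a₂ j) b))]
  refine (Finset.sum_le_sum hj).trans ?_
  rw [← Finset.mul_sum, Finset.sum_add_distrib, mul_assoc, mul_add d]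
  exact mul_le_mul_of_nonneg_left (add_le_add (hcut a₁) (hcut a₂)) hBd

/-- the Euler product `∏_{p ∈ S} (1 - N(p)^(-2s))` -/
noncomputable def EP (S : Finset O) (s : ℂ) : ℂ := ∏ p ∈ S, (1 - (nm p : ℂ) ^ (-(2 * s)))

theorem norm_EP_le {S : Finset O} (hS : PSet S) {s : ℂ} (hs : 0 ≤ s.re) :
    ‖EP S s‖ ≤ (2 : ℝ) ^ S.card := by
  rw [EP, norm_prod, ← Finset.prod_const]
  refine Finset.prod_le_prod (fun _ _ => norm_nonneg _) fun p hp => ?_
  have h2 := (hS p hp).two_le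
  refine (norm_sub_le _ _).trans ?_
  rw [norm_one, Complex.norm_cpow_eq_rpow_re_of_pos (by linarith)]
  have : nm p ^ (-(2 * s)).re ≤ 1 :=
    Real.rpow_le_one_of_one_le_of_nonpos (by linarith) (by simp; linarith)
  linarith

/-- expand the product (`Finset.prod_sub`), `(Y / NS d ^ 2) ^ s = Y ^ s * ∏ (nm p) ^ (-2s)` -/
theorem EP_expand {S : Finset O} (hS : PSet S) {Y : ℝ} (hY : 0 < Y) (s : ℂ) :
    ∑ d ∈ S.powerset, (-1) ^ d.card * ((Y / NS d ^ 2 : ℝ) : ℂ) ^ s = (Y : ℂ) ^ s * EP S s := by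
  have hcp : ∀ {x : ℝ}, 0 < x → ∀ z : ℂ, (x : ℂ) ^ z = Complex.exp ((Real.log x : ℂ) * z) := by
    intro x hx z
    rw [Complex.cpow_def_of_ne_zero (Complex.ofReal_ne_zero.2 hx.ne'), Complex.ofReal_log hx.le]
  rw [EP, Finset.prod_sub, Finset.mul_sum]
  refine Finset.sum_congr rfl fun d hd => ?_
  have hdS : PSet d := hS.mono (Finset.mem_powerset.1 hd)
  have hp : ∀ p ∈ d, 0 < nm p := fun p hp => by linarith [(hdS p hp).two_le]
  have hN : 0 < NS d := by linarith [hdS.one_le_NS]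
  have h1 : ∏ p ∈ d, (nm p : ℂ) ^ (-(2 * s)) =
      Complex.exp ((Real.log (NS d) : ℂ) * (-(2 * s))) := by
    rw [NS, Real.log_prod fun p h => (hp p h).ne', Complex.ofReal_sum, Finset.sum_mul,
      Complex.exp_sum]
    exact Finset.prod_congr rfl fun p h => hcp (hp p h) _
  rw [Finset.prod_const_one, mul_one, h1, hcp (by positivity), hcp hY, mul_left_comm,
    ← Complex.exp_add, Real.log_div hY.ne' (by positivity), Real.log_pow]
  congr 2
  push_cast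
  ring

theorem blb_re (σ t : ℝ) : ((σ : ℂ) + t * Complex.I).re = σ := by simp

theorem blb_norm_cpow {Y : ℝ} (hY : 0 < Y) (σ t : ℝ) :
    ‖(Y : ℂ) ^ ((σ : ℂ) + t * Complex.I)‖ = Y ^ σ := by
  rw [Complex.norm_cpow_eq_rpow_re_of_pos hY, blb_re]

theorem blb_int (σ : ℝ) {ρ : ℝ → ℂ} (hρ : Integrable ρ) {Y : ℝ} (hY : 0 < Y) :
    Integrable fun t : ℝ => (Y : ℂ) ^ ((σ : ℂ) + t * Complex.I) * ρ t := by
  refine hρ.bdd_mul (c := Y ^ σ) (Continuous.aestronglyMeasurable ?_)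
    (Filter.Eventually.of_forall fun t => (blb_norm_cpow hY σ t).le)
  exact Continuous.const_cpow (by fun_prop) (Or.inl (Complex.ofReal_ne_zero.2 hY.ne'))

theorem blb_Bi_integral (C : Finset (Finset O)) (a₁ a₂ F : Finset O → ℂ) (g : Finset O → ℝ → ℂ)
    (h : ∀ m₁ ∈ C, ∀ m₂ ∈ C, Disjoint m₁ m₂ →
      Integrable (g (m₁ ∪ m₂)) ∧ F (m₁ ∪ m₂) = ∫ t, g (m₁ ∪ m₂) t) :
    Bi C a₁ a₂ F = ∫ t, Bi C a₁ a₂ fun Q => g Q t := by
  have hi : ∀ m₁ ∈ C, ∀ m₂ ∈ C, Integrable fun t =>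
      if Disjoint m₁ m₂ then a₁ m₁ * a₂ m₂ * g (m₁ ∪ m₂) t else 0 := by
    intro m₁ h₁ m₂ h₂
    by_cases hd : Disjoint m₁ m₂
    · simp only [if_pos hd]; exact (h m₁ h₁ m₂ h₂ hd).1.const_mul _
    · simp only [if_neg hd]; exact integrable_zero _ _ _
  unfold Bi
  rw [integral_finsetSum _ fun m₁ h₁ => integrable_finsetSum _ (hi m₁ h₁)]
  refine Finset.sum_congr rfl fun m₁ h₁ => ?_
  rw [integral_finsetSum _ (hi m₁ h₁)]
  refine Finset.sum_congr rfl fun m₂ h₂ => ?_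
  by_cases hd : Disjoint m₁ m₂
  · simp only [if_pos hd]; rw [integral_const_mul, (h m₁ h₁ m₂ h₂ hd).2]
  · simp only [if_neg hd, integral_zero]

theorem blb_nsq {C : Finset (Finset O)} (a c : Finset O → ℂ) {d : ℝ} (h : ∀ m ∈ C, ‖c m‖ ≤ d) :
    nsq C (fun m => a m * c m) ≤ d ^ 2 * nsq C a := by
  unfold nsq
  rw [Finset.mul_sum]
  refine Finset.sum_le_sum fun m hm => ?_
  rw [norm_mul, mul_pow, mul_comm]
  exact mul_le_mul_of_nonneg_right (pow_le_pow_left₀ (norm_nonneg _) (h m hm) 2) (by positivity)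

/-- the integrand is a bounded continuous function times `ρ` -/
theorem Er_rep {σ : ℝ} (h0 : 0 < σ) {ρ : ℝ → ℂ} (hρ : Integrable ρ)
    (hR : ∀ Y : ℝ, 0 < Y → (Rm Y : ℂ) = ∫ t : ℝ, (Y : ℂ) ^ ((σ : ℂ) + t * Complex.I) * ρ t)
    {S : Finset O} (hS : PSet S) {Y : ℝ} (hY : 0 < Y) :
    Integrable (fun t : ℝ =>
      (Y : ℂ) ^ ((σ : ℂ) + t * Complex.I) * EP S ((σ : ℂ) + t * Complex.I) * ρ t) ∧
    (Er S Y : ℂ) =
      ∫ t : ℝ, (Y : ℂ) ^ ((σ : ℂ) + t * Complex.I) * EP S ((σ : ℂ) + t * Complex.I) * ρ t := by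
  have hpos : ∀ d ∈ S.powerset, 0 < Y / NS d ^ 2 := fun d hd => by
    have := (hS.mono (Finset.mem_powerset.1 hd)).one_le_NS
    positivity
  have e : (fun t : ℝ =>
      (Y : ℂ) ^ ((σ : ℂ) + t * Complex.I) * EP S ((σ : ℂ) + t * Complex.I) * ρ t) = fun t : ℝ =>
      ∑ d ∈ S.powerset, (-1) ^ d.card *
        (((Y / NS d ^ 2 : ℝ) : ℂ) ^ ((σ : ℂ) + t * Complex.I) * ρ t) := by
    funext t
    rw [← EP_expand hS hY, Finset.sum_mul]
    simp only [mul_assoc]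
  have hi : ∀ d ∈ S.powerset, Integrable fun t : ℝ => (-1 : ℂ) ^ d.card *
      (((Y / NS d ^ 2 : ℝ) : ℂ) ^ ((σ : ℂ) + t * Complex.I) * ρ t) :=
    fun d hd => (blb_int σ hρ (hpos d hd)).const_mul _
  rw [e]
  refine ⟨integrable_finsetSum _ hi, ?_⟩
  rw [integral_finsetSum _ hi, Er, Complex.ofReal_sum]
  refine Finset.sum_congr rfl fun d hd => ?_
  rw [integral_const_mul, ← hR _ (hpos d hd), Complex.ofReal_mul, Complex.ofReal_pow,
    Complex.ofReal_neg, Complex.ofReal_one]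

/-- `mellin_Rm`, `Er_rep`; the form is `∫ Φ(t) ρ(t)`, `s = σ + it`,
`Φ(t) = EP F s · Bi C (a₁ · x^s · EP) (a₂ · x^s · EP) (fun Q => ∑_b η b (X b)^s ch Q b)`, `bil0`;
`C₀ = ∫ ‖ρ‖`.  (For disjoint `m₁, m₂`: `NS (m₁ ∪ m₂) / N² = (NS m₁ / N) (NS m₂ / N)`.) -/
theorem bil1 {σ : ℝ} (h0 : 0 < σ) (h1 : σ < 1 / 2) : ∃ C₀ : ℝ, 0 < C₀ ∧
    ∀ (N Bd d : ℝ) (θ : ℕ) (B F : Finset O) (w X : O → ℝ) (η : O → ℂ) (C : Finset (Finset O))
      (a₁ a₂ : Finset O → ℂ), RowW N B w Bd → 0 ≤ Bd → Cols N C → PSet F →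
      (2 : ℝ) ^ F.card ≤ d → (∀ m ∈ C, (2 : ℝ) ^ m.card ≤ d ∧ Disjoint m F) →
      (∀ b ∈ B, 0 < X b ∧ ‖η b‖ * X b ^ σ ≤ w b) →
      ‖Bi C a₁ a₂ fun Q => ∑ b ∈ B, η b * ch Q b * (Er (Q ∪ F) (X b * (NS Q / N ^ 2) ^ θ) : ℂ)‖ ≤
        C₀ * Bd * d ^ 4 * (nsq C a₁ + nsq C a₂) := by
  obtain ⟨ρ, hρ, hR⟩ := mellin_Rm h0 h1
  have hI : 0 ≤ ∫ t, ‖ρ t‖ := integral_nonneg fun _ => norm_nonneg _
  refine ⟨(∫ t, ‖ρ t‖) + 1, by linarith, ?_⟩
  intro N Bd d θ B F w X η C a₁ a₂ hW hBd hC hF hFd hm hX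
  have hd0 : 0 ≤ d := le_trans (by positivity) hFd
  have hx : ∀ m ∈ C, 0 < (NS m / N) ^ θ ∧ (NS m / N) ^ θ ≤ 1 := fun m hm' => by
    have h2 := (hC m hm').1.one_le_NS
    have h3 := (hC m hm').2
    have hN : 0 < N := by linarith
    exact ⟨by positivity, pow_le_one₀ (by positivity) ((div_le_one hN).2 h3)⟩
  have hY : ∀ m₁ m₂ : Finset O, Disjoint m₁ m₂ → ∀ b, X b * (NS (m₁ ∪ m₂) / N ^ 2) ^ θ =
      X b * ((NS m₁ / N) ^ θ * (NS m₂ / N) ^ θ) := fun m₁ m₂ hd b => by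
    rw [NS_union hd, ← mul_pow, div_mul_div_comm, sq]
  rw [blb_Bi_integral C a₁ a₂ _ (fun Q t => ∑ b ∈ B, η b * ch Q b *
    (((X b * (NS Q / N ^ 2) ^ θ : ℝ) : ℂ) ^ ((σ : ℂ) + t * Complex.I) *
      EP (Q ∪ F) ((σ : ℂ) + t * Complex.I) * ρ t)) fun m₁ h₁ m₂ h₂ hd => ?_]
  swap
  · have key := fun b (hb : b ∈ B) => Er_rep h0 hρ hR (((hC m₁ h₁).1.union (hC m₂ h₂).1).union hF)
      (Y := X b * (NS (m₁ ∪ m₂) / N ^ 2) ^ θ)
      (by rw [hY m₁ m₂ hd]; exact mul_pos (hX b hb).1 (mul_pos (hx m₁ h₁).1 (hx m₂ h₂).1))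
    have hi := fun b (hb : b ∈ B) => (key b hb).1.const_mul (η b * ch (m₁ ∪ m₂) b)
    refine ⟨integrable_finsetSum _ hi, ?_⟩
    rw [integral_finsetSum _ hi]
    exact Finset.sum_congr rfl fun b hb => by rw [integral_const_mul, (key b hb).2]
  have hn : 0 ≤ Bd * d ^ 4 * (nsq C a₁ + nsq C a₂) :=
    mul_nonneg (by positivity) (add_nonneg (nsq_nonneg _ _) (nsq_nonneg _ _))
  refine (norm_integral_le_of_norm_le (hρ.norm.const_mul (Bd * d ^ 4 * (nsq C a₁ + nsq C a₂)))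
    (Filter.Eventually.of_forall fun t => ?_)).trans ?_
  swap
  · rw [integral_const_mul]
    nlinarith
  set s : ℂ := (σ : ℂ) + t * Complex.I with hs
  have hs0 : 0 ≤ s.re := by rw [hs, blb_re]; exact h0.le
  set c : Finset O → ℂ := fun m => (((NS m / N) ^ θ : ℝ) : ℂ) ^ s * EP m s with hc
  have hcd : ∀ m ∈ C, ‖c m‖ ≤ d := fun m hm' => by
    simp only [hc]
    rw [norm_mul, hs, blb_norm_cpow (hx m hm').1, ← one_mul d]
    exact mul_le_mul (Real.rpow_le_one (hx m hm').1.le (hx m hm').2 h0.le)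
      ((norm_EP_le (hC m hm').1 hs0).trans (hm m hm').1) (norm_nonneg _) zero_le_one
  have e : (Bi C a₁ a₂ fun Q => ∑ b ∈ B, η b * ch Q b *
      (((X b * (NS Q / N ^ 2) ^ θ : ℝ) : ℂ) ^ s * EP (Q ∪ F) s * ρ t)) =
      EP F s * ρ t * Bi C (fun m => a₁ m * c m) (fun m => a₂ m * c m)
        fun Q => ∑ b ∈ B, η b * (X b : ℂ) ^ s * ch Q b := by
    unfold Bi
    rw [Finset.mul_sum]
    refine Finset.sum_congr rfl fun m₁ h₁ => ?_
    rw [Finset.mul_sum]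
    refine Finset.sum_congr rfl fun m₂ h₂ => ?_
    split_ifs with hd
    · rw [Finset.mul_sum, Finset.mul_sum, Finset.mul_sum]
      refine Finset.sum_congr rfl fun b hb => ?_
      have e1 : EP (m₁ ∪ m₂ ∪ F) s = EP m₁ s * EP m₂ s * EP F s := by
        unfold EP
        rw [Finset.prod_union (Finset.disjoint_union_left.2 ⟨(hm m₁ h₁).2, (hm m₂ h₂).2⟩),
          Finset.prod_union hd]
      rw [hY m₁ m₂ hd, e1, Complex.ofReal_mul, Complex.mul_cpow_ofReal_nonneg (hX b hb).1.le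
        (mul_pos (hx m₁ h₁).1 (hx m₂ h₂).1).le, Complex.ofReal_mul,
        Complex.mul_cpow_ofReal_nonneg (hx m₁ h₁).1.le (hx m₂ h₂).1.le]
      simp only [hc]
      ring
    · rw [mul_zero]
  have h2 := bil0 hW hBd hC (fun m hm' => (hm m hm').1) (fun b => η b * (X b : ℂ) ^ s)
    (fun b hb => by rw [norm_mul, hs, blb_norm_cpow (hX b hb).1]; exact (hX b hb).2)
    (fun m => a₁ m * c m) (fun m => a₂ m * c m)
  have h3 := h2.trans (mul_le_mul_of_nonneg_left (add_le_add (blb_nsq a₁ c hcd) (blb_nsq a₂ c hcd))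
    (by positivity))
  rw [e, norm_mul, norm_mul]
  refine (mul_le_mul (mul_le_mul_of_nonneg_right ((norm_EP_le hF hs0).trans hFd) (norm_nonneg _)) h3
    (norm_nonneg _) (by positivity)).trans (le_of_eq ?_)
  ring

end Crest.Agent.R17.E
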