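import Crest.Agent.R17.E.Ari
import Crest.Agent.R17.A.Poisson
import Crest.Agent.R229.Poisson

/-!
Row 17, block E: the theta function `θ(z) = ∑_v exp (-cc N(v) z)`, `Re z > 0`.
Transport `R229.summable_theta`, `R229.poisson_atom` (`τ = kap z`, `π kap = cc`, `4/(3 kap) = kap`)
along `exists_coord`.
-/

set_option autoImplicit false

namespace Crest.Agent.R17.E

open scoped Classical ComplexConjugate

/-- `θ(z) - 1` -/
noncomputable def th (z : ℂ) : ℂ := ∑' v : O, if v = 0 then 0 else Complex.exp (-(cc * nm v * z))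

theorem summable_exp {x : ℝ} (hx : 0 < x) : Summable fun v : O => Real.exp (-(x * nm v)) := by
  refine (R17.summable_gw (K := cc / x) (div_pos cc_pos hx)).congr fun v => ?_
  have := cc_pos
  rw [gw_eq]
  congr 2
  field_simp

theorem summable_gw {K : ℝ} (hK : 0 < K) : Summable fun k : O => gw K k := by
  exact R17.summable_gw hK

/-- a bounded function times the Gaussian -/
theorem summable_gw_mul {K : ℝ} (hK : 0 < K) {f : O → ℂ} {A : ℝ} (hf : ∀ k, ‖f k‖ ≤ A) :
    Summable fun k : O => (gw K k : ℂ) * f k := by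
  simpa only [mul_comm] using poa_summable hf hK

/-- `nm v ≤ nm v ^ 2` -/
theorem summable_exp_sq {x : ℝ} (hx : 0 < x) :
    Summable fun v : O => Real.exp (-(x * nm v ^ 2)) := by
  refine Summable.of_nonneg_of_le (fun v => (Real.exp_pos _).le) (fun v => ?_) (summable_exp hx)
  rw [Real.exp_le_exp, neg_le_neg_iff]
  refine mul_le_mul_of_nonneg_left ?_ hx.le
  by_cases hv : v = 0
  · rw [hv, nm_zero]
    norm_num
  · nlinarith [one_le_nm hv]

theorem th_norm_term (z : ℂ) (v : O) :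
    ‖Complex.exp (-(cc * nm v * z))‖ = Real.exp (-(cc * z.re * nm v)) := by
  rw [Complex.norm_exp]
  congr 1
  simp only [Complex.neg_re, Complex.mul_re, Complex.ofReal_re, Complex.ofReal_im, Complex.mul_im]
  ring

theorem th_summable {z : ℂ} (hz : 0 < z.re) :
    Summable fun v : O => Complex.exp (-(cc * nm v * z)) :=
  Summable.of_norm <| by
    simp only [th_norm_term]
    exact summable_exp (mul_pos cc_pos hz)

theorem th_one_add {z : ℂ} (hz : 0 < z.re) :
    1 + th z = ∑' v : O, Complex.exp (-(cc * nm v * z)) := by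
  rw [(th_summable hz).tsum_eq_add_tsum_ite 0, nm_zero, th]
  simp

theorem th_inv {z : ℂ} (hz : 0 < z.re) : 1 + th z = z⁻¹ * (1 + th z⁻¹) := by
  obtain ⟨e, he⟩ := exists_coord
  have hk : (0 : ℝ) < R229.kap := by unfold R229.kap; positivity
  have hk2 : (R229.kap : ℂ) ^ 2 * 3 = 4 := by
    have : R229.kap ^ 2 * 3 = 4 := by
      unfold R229.kap
      rw [div_pow, Real.sq_sqrt (by norm_num)]
      norm_num
    exact_mod_cast this
  have hkc : (R229.kap : ℂ) ≠ 0 := by exact_mod_cast hk.ne'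
  have hz0 : z ≠ 0 := fun h => by simp [h] at hz
  have hcc : (cc : ℂ) = Real.pi * R229.kap := by
    have : cc = Real.pi * R229.kap := by
      unfold cc R229.kap
      ring
    exact_mod_cast this
  have key : ∀ w : ℂ, 0 < w.re → 1 + th w =
      ∑' p : ℤ × ℤ, Complex.exp (-((Real.pi : ℂ) * (R229.kap * w) * (R229.qf p : ℂ))) := by
    intro w hw
    rw [th_one_add hw, ← e.tsum_eq]
    refine tsum_congr fun p => ?_
    rw [he, hcc, R229.qf]
    congr 2
    push_cast
    ring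
  have hz' : 0 < (z⁻¹).re := by
    rw [Complex.inv_re]
    exact div_pos hz (Complex.normSq_pos.2 hz0)
  rw [key z hz, key z⁻¹ hz', R229.poisson_atom (by simpa using mul_pos hk hz)]
  have h1 : (R229.kap : ℂ) / (R229.kap * z) = z⁻¹ := by field_simp
  have h2 : 4 / (3 * ((R229.kap : ℂ) * z)) = R229.kap * z⁻¹ := by
    rw [← hk2]
    field_simp
  rw [h1, h2]

/-- for ALL `x > 0`.  For `x ≥ 1`: `exp (-x n) ≤ exp (-n/2) exp (-x/2)` (`n ≥ 1`), `exp (-x/2) ≤ 2/x`.
For `x ≤ 1`: real inversion (`R229.theta_dual` or `th_inv`) and monotonicity. -/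
theorem tsum_exp_le : ∃ C : ℝ, 0 < C ∧ ∀ x : ℝ, 0 < x →
    ∑' v : O, (if v = 0 then 0 else Real.exp (-(x * nm v))) ≤ C / x := by
  refine ⟨11, by norm_num, fun x hx => ?_⟩
  refine Real.tsum_le_of_sum_le (fun k => ?_) fun A => ?_
  · dsimp only
    split_ifs
    · exact le_rfl
    · exact (Real.exp_pos _).le
  · have h1 : ∑ k ∈ A, (if k = 0 then 0 else Real.exp (-(x * nm k))) =
        ∑ k ∈ A.filter (· ≠ 0), Real.exp (-(x * nm k)) := by
      rw [Finset.sum_filter]
      refine Finset.sum_congr rfl fun k _ => ?_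
      by_cases hk : k = 0 <;> simp [hk]
    rw [h1]
    exact sum_exp_neg_nm_le hx fun k hk => (Finset.mem_filter.1 hk).2

/-- `th z - z⁻¹ = z⁻¹ th z⁻¹ - 1`, `‖th z⁻¹‖ ≤ C / (cc Re z⁻¹)`, `Re z⁻¹ = Re z / ‖z‖²` -/
theorem norm_th_sub : ∃ C : ℝ, 0 < C ∧ ∀ z : ℂ, 0 < z.re →
    ‖th z - z⁻¹‖ ≤ 1 + C * (‖z‖ / z.re) := by
  obtain ⟨C, hC, h⟩ := tsum_exp_le
  have hc := cc_pos
  refine ⟨C / cc, by positivity, fun z hz => ?_⟩
  have hz0 : z ≠ 0 := fun h => by simp [h] at hz
  have hn : 0 < ‖z‖ := norm_pos_iff.2 hz0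
  have hre : (z⁻¹).re = z.re / ‖z‖ ^ 2 := by rw [Complex.inv_re, Complex.normSq_eq_norm_sq]
  have hz' : 0 < (z⁻¹).re := by
    rw [hre]
    positivity
  have h1 : th z - z⁻¹ = z⁻¹ * th z⁻¹ - 1 := by linear_combination th_inv hz
  have h2 : ‖th z⁻¹‖ ≤ C / (cc * (z⁻¹).re) := by
    refine le_trans ?_ (h _ (mul_pos hc hz'))
    have hs : Summable fun v : O => if v = 0 then 0 else Real.exp (-(cc * (z⁻¹).re * nm v)) := by
      refine Summable.of_nonneg_of_le (fun v => ?_) (fun v => ?_) (summable_exp (mul_pos hc hz'))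
      · split_ifs
        · exact le_rfl
        · exact (Real.exp_pos _).le
      · split_ifs
        · exact (Real.exp_pos _).le
        · exact le_rfl
    refine tsum_of_norm_bounded hs.hasSum fun v => ?_
    split_ifs
    · simp
    · exact (th_norm_term _ v).le
  rw [h1]
  calc ‖z⁻¹ * th z⁻¹ - 1‖ ≤ ‖z⁻¹ * th z⁻¹‖ + ‖(1 : ℂ)‖ := norm_sub_le _ _
    _ ≤ ‖z‖⁻¹ * (C / (cc * (z⁻¹).re)) + 1 := by
      rw [norm_mul, norm_inv, norm_one]
      gcongr
    _ = 1 + C / cc * (‖z‖ / z.re) := by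
      rw [hre]
      field_simp
      ring

/-- Gaussian tail: `exp (-cc n/H) ≤ exp (-K/H) exp (-cc n/(2H))` for `n > K` (`2 ≤ cc`) -/
theorem tail_gw : ∃ C : ℝ, 0 < C ∧ ∀ H K : ℝ, 0 < H → 0 ≤ K →
    ∑' h : O, (if K < nm h then gw H h else 0) ≤ C * H * Real.exp (-(K / H)) := by
  refine ⟨22, by norm_num, fun H K hH hK => ?_⟩
  refine Real.tsum_le_of_sum_le (fun k => ?_) fun A => ?_
  · dsimp only
    split_ifs
    · exact (gw_pos _ _).le
    · exact le_rfl
  · rw [← Finset.sum_filter]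
    refine sum_gw_tail hH fun k hk => ?_
    have h := (Finset.mem_filter.1 hk).2
    refine ⟨?_, h.le⟩
    rintro rfl
    rw [nm_zero] at h
    linarith

end Crest.Agent.R17.E
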