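import Crest.Agent.R17.E.Cols
import Crest.Agent.R17.E.Th

/-!
Row 17, block E: expanding the energy and grouping the pairs of columns by their intersection.
-/

set_option autoImplicit false

namespace Crest.Agent.R17.E

open scoped Classical ComplexConjugate

theorem mem_sub {C : Finset (Finset O)} {Δ m : Finset O} :
    m ∈ sub C Δ ↔ Disjoint m Δ ∧ m ∪ Δ ∈ C := by
  unfold sub
  simp only [Finset.mem_image, Finset.mem_filter]
  constructor
  · rintro ⟨S, ⟨hS, hΔ⟩, rfl⟩
    exact ⟨Finset.sdiff_disjoint, by rwa [Finset.sdiff_union_of_subset hΔ]⟩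
  · rintro ⟨hd, hm⟩
    exact ⟨m ∪ Δ, ⟨hm, Finset.subset_union_right⟩, Finset.union_sdiff_cancel_right hd⟩

theorem reg_sum_sub {β : Type*} [AddCommMonoid β] (C : Finset (Finset O)) (Δ : Finset O)
    (g : Finset O → β) :
    ∑ m ∈ sub C Δ, g m = ∑ S ∈ C, if Δ ⊆ S then g (S \ Δ) else 0 := by
  unfold sub
  rw [Finset.sum_image, Finset.sum_filter]
  intro S hS T hT h
  have h1 := Finset.sdiff_union_of_subset (Finset.mem_filter.1 (Finset.mem_coe.1 hS)).2
  have h2 := Finset.sdiff_union_of_subset (Finset.mem_filter.1 (Finset.mem_coe.1 hT)).2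
  rw [← h1, ← h2]
  exact congrArg (· ∪ Δ) h

/-- bijection `(S, T) ↦ (S ∩ T, S \ T, T \ S)`; (`Finset.sum_fiberwise_of_maps_to` for `S ∩ T`, then
`Finset.sum_bij'`/`sum_nbij'` on the filtered products) -/
theorem regroup (C : Finset (Finset O)) (a₁ a₂ : Finset O → ℂ) (F : Finset O → Finset O → ℂ) :
    ∑ S ∈ C, ∑ T ∈ C, a₁ S * a₂ T * F (S ∩ T) (S \ T ∪ T \ S) =
      ∑ Δ ∈ C.biUnion Finset.powerset,
        Bi (sub C Δ) (fun m => a₁ (m ∪ Δ)) (fun m => a₂ (m ∪ Δ)) (F Δ) := by
  have e : ∀ Δ : Finset O, Bi (sub C Δ) (fun m => a₁ (m ∪ Δ)) (fun m => a₂ (m ∪ Δ)) (F Δ) =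
      ∑ S ∈ C, ∑ T ∈ C, if Δ = S ∩ T then a₁ S * a₂ T * F (S ∩ T) (S \ T ∪ T \ S) else 0 := by
    intro Δ
    unfold Bi
    rw [reg_sum_sub]
    refine Finset.sum_congr rfl fun S _ => ?_
    by_cases hS : Δ ⊆ S
    · rw [if_pos hS, reg_sum_sub]
      refine Finset.sum_congr rfl fun T _ => ?_
      by_cases hT : Δ ⊆ T
      · rw [if_pos hT]
        by_cases h : Δ = S ∩ T
        · subst h
          rw [if_pos rfl, Finset.sdiff_inter_self_left, Finset.sdiff_inter_self_right,
            if_pos disjoint_sdiff_sdiff]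
          have h2 : T \ S ∪ S ∩ T = T := by rw [Finset.inter_comm, Finset.sdiff_union_inter]
          simp only [Finset.sdiff_union_inter, h2]
        · rw [if_neg h, if_neg]
          intro hd
          refine h (Finset.Subset.antisymm (Finset.subset_inter hS hT) fun p hp => ?_)
          by_contra hpΔ
          exact Finset.disjoint_left.1 hd
            (Finset.mem_sdiff.2 ⟨(Finset.mem_inter.1 hp).1, hpΔ⟩)
            (Finset.mem_sdiff.2 ⟨(Finset.mem_inter.1 hp).2, hpΔ⟩)
      · rw [if_neg hT, if_neg]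
        rintro rfl
        exact hT Finset.inter_subset_right
    · rw [if_neg hS]
      refine (Finset.sum_eq_zero fun T _ => if_neg ?_).symm
      rintro rfl
      exact hS Finset.inter_subset_left
  simp only [e]
  rw [Finset.sum_comm (s := C.biUnion Finset.powerset)]
  refine Finset.sum_congr rfl fun S hS => ?_
  rw [Finset.sum_comm]
  refine Finset.sum_congr rfl fun T _ => ?_
  rw [Finset.sum_ite_eq', if_pos]
  exact Finset.mem_biUnion.2 ⟨S, hS, Finset.mem_powerset.2 Finset.inter_subset_left⟩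

theorem sum_nsq_sub {C : Finset (Finset O)} {d : ℝ} (hd : ∀ S ∈ C, (2 : ℝ) ^ S.card ≤ d)
    (a : Finset O → ℂ) :
    ∑ Δ ∈ C.biUnion Finset.powerset, nsq (sub C Δ) (fun m => a (m ∪ Δ)) ≤ d * nsq C a := by
  unfold nsq
  simp only [reg_sum_sub]
  rw [Finset.sum_comm, Finset.mul_sum]
  refine Finset.sum_le_sum fun S hS => ?_
  rw [← Finset.sum_filter]
  calc _ ≤ ∑ Δ ∈ S.powerset, ‖a (S \ Δ ∪ Δ)‖ ^ 2 :=
        Finset.sum_le_sum_of_subset_of_nonneg
          (fun Δ hΔ => Finset.mem_powerset.2 (Finset.mem_filter.1 hΔ).2) fun _ _ _ => by positivity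
    _ = ∑ _Δ ∈ S.powerset, ‖a S‖ ^ 2 := Finset.sum_congr rfl fun Δ hΔ => by
        rw [Finset.sdiff_union_of_subset (Finset.mem_powerset.1 hΔ)]
    _ = 2 ^ S.card * ‖a S‖ ^ 2 := by simp
    _ ≤ _ := mul_le_mul_of_nonneg_right (hd S hS) (by positivity)

theorem reg_gw_pos (M : ℝ) (k : O) : 0 < gw M k := Real.exp_pos _

theorem summable_energy {M K N : ℝ} (hM : 0 < M) {C : Finset (Finset O)} (hC : Cols N C)
    (a : Finset O → ℂ) :
    Summable fun k : O => if Big K k then gw M k * ‖As C a k‖ ^ 2 else 0 := by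
  refine Summable.of_nonneg_of_le (fun k => ?_) (fun k => ?_)
    ((summable_gw hM).mul_right ((∑ S ∈ C, ‖a S‖) ^ 2))
  · have := reg_gw_pos M k
    split_ifs
    · positivity
    · exact le_rfl
  · have := reg_gw_pos M k
    split_ifs
    · refine mul_le_mul_of_nonneg_left (pow_le_pow_left₀ (norm_nonneg _) ?_ 2) this.le
      refine (norm_sum_le _ _).trans (Finset.sum_le_sum fun S hS => ?_)
      rw [norm_mul]
      exact mul_le_of_le_one_right (norm_nonneg _) ((hC S hS).1.norm_ch_le k)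
    · positivity

/-- `‖z‖² = z conj z`, `PSet.conj_ch`, `ch_mul_ch`, `Summable.tsum_finsetSum` -/
theorem energy_eq {M K N : ℝ} (hM : 0 < M) {C : Finset (Finset O)} (hC : Cols N C)
    (a : Finset O → ℂ) :
    ((∑' k : O, if Big K k then gw M k * ‖As C a k‖ ^ 2 else 0 : ℝ) : ℂ) =
      ∑ S ∈ C, ∑ T ∈ C, a S * conj (a T) * TK M K (S ∩ T) (S \ T ∪ T \ S) := by
  have hs : ∀ S ∈ C, ∀ T ∈ C, Summable fun k : O => a S * conj (a T) *
      (if Big K k ∧ cop (S ∩ T) k then (gw M k : ℂ) * ch (S \ T ∪ T \ S) k else 0) := by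
    intro S hS T hT
    have hP : PSet (S \ T ∪ T \ S) :=
      ((hC S hS).1.mono Finset.sdiff_subset).union ((hC T hT).1.mono Finset.sdiff_subset)
    have := summable_gw_mul hM (A := 1)
      (f := fun k => if Big K k ∧ cop (S ∩ T) k then ch (S \ T ∪ T \ S) k else 0) fun k => by
        split_ifs
        · exact hP.norm_ch_le k
        · simp
    refine (this.congr fun k => ?_).mul_left _
    split_ifs <;> simp
  have e : ∀ k : O, ((if Big K k then gw M k * ‖As C a k‖ ^ 2 else 0 : ℝ) : ℂ) =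
      ∑ S ∈ C, ∑ T ∈ C, a S * conj (a T) *
        (if Big K k ∧ cop (S ∩ T) k then (gw M k : ℂ) * ch (S \ T ∪ T \ S) k else 0) := by
    intro k
    by_cases hk : Big K k
    · rw [if_pos hk]
      push_cast
      rw [← Complex.mul_conj', As, map_sum, Finset.sum_mul_sum, Finset.mul_sum]
      refine Finset.sum_congr rfl fun S hS => ?_
      rw [Finset.mul_sum]
      refine Finset.sum_congr rfl fun T hT => ?_
      have h := ch_mul_ch (hC S hS).1 (hC T hT).1 k
      rw [map_mul, (hC T hT).1.conj_ch]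
      calc (gw M k : ℂ) * (a S * ch S k * (conj (a T) * ch T k)) =
            a S * conj (a T) * (gw M k * (ch S k * ch T k)) := by ring
        _ = _ := by
            rw [h]
            by_cases hc : cop (S ∩ T) k <;> simp [hc, hk]
    · simp [hk]
  rw [Complex.ofReal_tsum]
  simp only [e]
  rw [Summable.tsum_finsetSum fun S hS => summable_sum fun T hT => hs S hS T hT]
  refine Finset.sum_congr rfl fun S hS => ?_
  rw [Summable.tsum_finsetSum fun T hT => hs S hS T hT]
  refine Finset.sum_congr rfl fun T _ => ?_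
  rw [tsum_mul_left, TK]

/-- the diagonal: `S \ T ∪ T \ S = ∅ ↔ S = T` -/
theorem diag_bound {C : Finset (Finset O)} (a : Finset O → ℂ) {M : ℝ}
    (F : Finset O → Finset O → ℂ)
    (hF : ∀ S ∈ C, ∀ T ∈ C, ‖F S T‖ ≤ if S \ T ∪ T \ S = ∅ then M else 0) :
    ‖∑ S ∈ C, ∑ T ∈ C, a S * conj (a T) * F S T‖ ≤ M * nsq C a := by
  rw [nsq, Finset.mul_sum]
  refine (norm_sum_le _ _).trans (Finset.sum_le_sum fun S hS => ?_)
  rw [Finset.sum_eq_single S (fun T hT hne => ?_) fun h => absurd hS h]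
  · have h := hF S hS S hS
    rw [if_pos (by simp)] at h
    rw [norm_mul, norm_mul, RCLike.norm_conj, ← sq, mul_comm]
    exact mul_le_mul_of_nonneg_right h (by positivity)
  · have h := hF S hS T hT
    rw [if_neg] at h
    · rw [norm_le_zero_iff.1 h, mul_zero]
    · intro h0
      rw [Finset.union_eq_empty, Finset.sdiff_eq_empty_iff_subset,
        Finset.sdiff_eq_empty_iff_subset] at h0
      exact hne (Finset.Subset.antisymm h0.2 h0.1)

/-- the trivial bound `(∑ ‖a‖)² ≤ card · nsq` -/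
theorem triv_bound {C : Finset (Finset O)} (a : Finset O → ℂ) {A : ℝ} (hA : 0 ≤ A)
    (F : Finset O → Finset O → ℂ) (hF : ∀ S ∈ C, ∀ T ∈ C, ‖F S T‖ ≤ A) :
    ‖∑ S ∈ C, ∑ T ∈ C, a S * conj (a T) * F S T‖ ≤ A * C.card * nsq C a := by
  calc _ ≤ ∑ S ∈ C, ∑ T ∈ C, ‖a S‖ * ‖a T‖ * A := by
        refine (norm_sum_le _ _).trans (Finset.sum_le_sum fun S hS => ?_)
        refine (norm_sum_le _ _).trans (Finset.sum_le_sum fun T hT => ?_)
        rw [norm_mul, norm_mul, RCLike.norm_conj]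
        exact mul_le_mul_of_nonneg_left (hF S hS T hT) (by positivity)
    _ = A * (∑ S ∈ C, ‖a S‖) ^ 2 := by
        rw [sq, Finset.sum_mul_sum, mul_comm A, Finset.sum_mul]
        simp only [Finset.sum_mul]
    _ ≤ A * (C.card * nsq C a) := mul_le_mul_of_nonneg_left sq_sum_le_card_mul_sum_sq hA
    _ = _ := by ring

end Crest.Agent.R17.E
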