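import Crest.Agent.R17.Iface

/-!
Row 17, block E (quadratic large sieve over `ℤ[ω]`, owner helper57).  FROZEN definitions.

PLAN.  Columns are finite sets `S` of odd primary primes (`n = ∏ S`), `ch S k = (k / n)_2`.
For odd primary squarefree `q` the theta identity `∑_k gw M k χ_q(k) = M/√Nq ∑_h gw (Nq/M) h χ_q(h)`
holds exactly (root number one).  Rows `k = b v²`, `b` squarefree.  In the energy over the rows with
`N b > K` (`Big K k`) the rows `N b ≤ K` of both sides of the identity have the same main term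
`kp √(M / N b) Ph`; the remainders `Er` have a Mellin representation on every line `0 < σ < 1/2`
(`Mel`), which separates the variables; the dual rows with `N b > K ≥ 3 N² log N / M` are negligible.
Result: `B(M,N) ≲ M + √M K^(ξ-1/2)` from `B(K,N) ≲ K^ξ + N`; duality; `ξ ↦ 2 - 1/ξ`.
All files: `open scoped Classical`, namespace `Crest.Agent.R17.E`.
-/

set_option autoImplicit false

namespace Crest.Agent.R17.E

open scoped Classical ComplexConjugate

/-- the Gaussian constant `2π/√3` (`gw K k = exp (-cc * nm k / K)`) -/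
noncomputable def cc : ℝ := 2 * Real.pi / Real.sqrt 3

/-- the main-term constant -/
noncomputable def kp : ℝ := Real.sqrt (Real.pi * cc) / 2

/-- the quadratic symbol `(u / n)_2` -/
noncomputable def qd (u n : O) : ℂ := sx u n ^ 3

/-- odd primary prime -/
def IsP (p : O) : Prop := Prime p ∧ Prim p ∧ IsCoprime p 2

/-- a set of odd primary primes -/
def PSet (S : Finset O) : Prop := ∀ p ∈ S, IsP p

/-- the product of a set of primes -/
noncomputable def pr (S : Finset O) : O := ∏ p ∈ S, p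

/-- its norm -/
noncomputable def NS (S : Finset O) : ℝ := ∏ p ∈ S, nm p

/-- its quadratic character -/
noncomputable def ch (S : Finset O) (k : O) : ℂ := ∏ p ∈ S, qd k p

/-- `φ(n) / N(n)` -/
noncomputable def Ph (S : Finset O) : ℝ := ∏ p ∈ S, (1 - 1 / nm p)

/-- `k` is prime to every element of `S` -/
def cop (S : Finset O) (k : O) : Prop := ∀ p ∈ S, ¬ p ∣ k

/-- every element of `S` divides `k` -/
def dv (S : Finset O) (k : O) : Prop := ∀ p ∈ S, p ∣ k

/-- a family of columns of norm at most `N` -/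
def Cols (N : ℝ) (C : Finset (Finset O)) : Prop := ∀ S ∈ C, PSet S ∧ NS S ≤ N

/-- squarefree rows of norm at most `K` -/
def Rows (K : ℝ) (B : Finset O) : Prop := ∀ b ∈ B, Squarefree b ∧ nm b ≤ K

/-- the column sum at the row `k` -/
noncomputable def As (C : Finset (Finset O)) (a : Finset O → ℂ) (k : O) : ℂ :=
  ∑ S ∈ C, a S * ch S k

/-- squared `ℓ²` norm -/
noncomputable def nsq {ι : Type} (C : Finset ι) (a : ι → ℂ) : ℝ := ∑ S ∈ C, ‖a S‖ ^ 2

/-- weighted large sieve bound for the rows `B` -/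
def RowW (N : ℝ) (B : Finset O) (w : O → ℝ) (Bd : ℝ) : Prop :=
  ∀ (C : Finset (Finset O)) (a : Finset O → ℂ), Cols N C →
    ∑ b ∈ B, w b * ‖As C a b‖ ^ 2 ≤ Bd * nsq C a

/-- large sieve bound: squarefree rows up to `K`, columns up to `N` -/
def RowB (K N Bd : ℝ) : Prop :=
  ∀ (B : Finset O) (C : Finset (Finset O)) (a : Finset O → ℂ), Rows K B → Cols N C →
    ∑ b ∈ B, ‖As C a b‖ ^ 2 ≤ Bd * nsq C a

/-- the hypothesis of the recursion step -/
def Hyp (K N D ξ : ℝ) : Prop :=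
  ∀ K₀ N₀ : ℝ, 0 < K₀ → K₀ ≤ 2 * K → 1 ≤ N₀ → N₀ ≤ N → RowB K₀ N₀ (D * (K₀ ^ ξ + N₀))

/-- `B(K,N) ≲ K + N^ξ` -/
def HA (ξ : ℝ) : Prop :=
  ∀ ε : ℝ, 0 < ε → ∃ C : ℝ, 0 < C ∧ ∀ K N : ℝ, 1 ≤ K → 1 ≤ N →
    RowB K N (C * (K * N) ^ ε * (K + N ^ ξ))

/-- `B(K,N) ≲ K^ξ + N` -/
def HB (ξ : ℝ) : Prop :=
  ∀ ε : ℝ, 0 < ε → ∃ C : ℝ, 0 < C ∧ ∀ K N : ℝ, 1 ≤ K → 1 ≤ N →
    RowB K N (C * (K * N) ^ ε * (K ^ ξ + N))

/-- the same bound for elements: rows are numerators -/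
def SqB (K N Bd : ℝ) : Prop :=
  ∀ (A B : Finset O) (a : O → ℂ), (∀ k ∈ A, Sq K k) → (∀ l ∈ B, Sq N l) →
    ∑ k ∈ A, ‖∑ l ∈ B, a l * qd k l‖ ^ 2 ≤ Bd * nsq B a

/-- the transposed bound: rows are denominators (up to `N`), columns numerators (up to `K`) -/
def SqT (K N Bd : ℝ) : Prop :=
  ∀ (A B : Finset O) (a : O → ℂ), (∀ k ∈ A, Sq K k) → (∀ l ∈ B, Sq N l) →
    ∑ l ∈ B, ‖∑ k ∈ A, a k * qd k l‖ ^ 2 ≤ Bd * nsq A a

/-- `∑_{v ≠ 0} exp (-cc N(v)² / Y)` -/
noncomputable def Th (Y : ℝ) : ℝ :=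
  ∑' v : O, if v = 0 then 0 else Real.exp (-(cc * nm v ^ 2 / Y))

/-- the same sum over `v` prime to `S` -/
noncomputable def ThS (S : Finset O) (Y : ℝ) : ℝ :=
  ∑' v : O, if v ≠ 0 ∧ cop S v then Real.exp (-(cc * nm v ^ 2 / Y)) else 0

/-- remainder -/
noncomputable def Rm (Y : ℝ) : ℝ := Th Y - kp * Real.sqrt Y

/-- remainder of `ThS` -/
noncomputable def Er (S : Finset O) (Y : ℝ) : ℝ :=
  ∑ d ∈ S.powerset, (-1) ^ d.card * Rm (Y / NS d ^ 2)

/-- non-zero rows whose squarefree kernel has norm `> K` -/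
def Big (K : ℝ) (k : O) : Prop := k ≠ 0 ∧ ¬ ∃ b v : O, Squarefree b ∧ nm b ≤ K ∧ k = b * v ^ 2

/-- `B` is the set of all squarefree elements of norm at most `K` -/
def AllSq (K : ℝ) (B : Finset O) : Prop := ∀ b, b ∈ B ↔ Squarefree b ∧ nm b ≤ K

/-- the kernel of the energy over the big rows (`Δ` = gcd of the two columns) -/
noncomputable def TK (M K : ℝ) (Δ Q : Finset O) : ℂ :=
  ∑' k : O, if Big K k ∧ cop Δ k then (gw M k : ℂ) * ch Q k else 0

/-- the terms `k = 0`, `h = 0` -/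
noncomputable def Zer (M : ℝ) (Δ Q : Finset O) : ℂ :=
  if Q = ∅ then ((M * Ph Δ - (if Δ = ∅ then 1 else 0) : ℝ) : ℂ) else 0

/-- primal remainder -/
noncomputable def PErr (M : ℝ) (B Δ Q : Finset O) : ℂ :=
  ∑ b ∈ B, (if cop Δ b then 1 else 0) * ch Q b * (Er (Q ∪ Δ) (M / nm b) : ℂ)

/-- dual remainder at the mask divisor `e` -/
noncomputable def DErr (M : ℝ) (B e Q : Finset O) : ℂ :=
  ((M / (NS e * Real.sqrt (NS Q)) : ℝ) : ℂ) *
    ∑ b ∈ B, ch Q b * (Er Q (NS (e.filter (· ∣ b)) ^ 2 * NS Q / (M * nm b)) : ℂ)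

/-- dual tail at the mask divisor `e` -/
noncomputable def Tl (M K : ℝ) (e Q : Finset O) : ℂ :=
  ((M / (NS e * Real.sqrt (NS Q)) : ℝ) : ℂ) *
    ∑' h : O, if Big K h ∧ dv e h then (gw (NS e ^ 2 * NS Q / M) h : ℂ) * ch Q h else 0

/-- bilinear form over disjoint pairs of columns -/
noncomputable def Bi (C : Finset (Finset O)) (a₁ a₂ : Finset O → ℂ) (F : Finset O → ℂ) : ℂ :=
  ∑ m₁ ∈ C, ∑ m₂ ∈ C, if Disjoint m₁ m₂ then a₁ m₁ * a₂ m₂ * F (m₁ ∪ m₂) else 0

/-- the columns containing `Δ`, with `Δ` removed -/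
noncomputable def sub (C : Finset (Finset O)) (Δ : Finset O) : Finset (Finset O) :=
  (C.filter (Δ ⊆ ·)).image (· \ Δ)

/-- the size of the new bound -/
noncomputable def Out (M N K ξ : ℝ) : ℝ := M + N + Real.sqrt M * K ^ (ξ - 1 / 2) + K ^ ξ

theorem cc_pos : 0 < cc := by unfold cc; positivity

theorem two_le_cc : 2 ≤ cc := by
  unfold cc
  have h3 : Real.sqrt 3 ≤ 2 := by
    rw [Real.sqrt_le_left (by norm_num)]; norm_num
  have h0 : 0 < Real.sqrt 3 := by positivity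
  rw [le_div_iff₀ h0]
  nlinarith [Real.pi_gt_three]

theorem gw_eq (K : ℝ) (k : O) : gw K k = Real.exp (-(cc * nm k / K)) := by
  unfold gw cc
  congr 2
  rw [div_mul_eq_mul_div, div_div]

theorem nsq_nonneg {ι : Type} (C : Finset ι) (a : ι → ℂ) : 0 ≤ nsq C a :=
  Finset.sum_nonneg fun _ _ => by positivity

end Crest.Agent.R17.E
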