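import Crest.Agent.R17.E.Poi
import Crest.Agent.R17.E.Ker

/-!
Row 17, block E: the exact identity for the kernel `TK`, and the tail bound.
-/

set_option autoImplicit false

namespace Crest.Agent.R17.E

open scoped Classical ComplexConjugate

theorem id_gw_zero (K : ℝ) : gw K 0 = 1 := by
  rw [gw_eq, nm_zero]; simp

theorem id_gw_pos (K : ℝ) (k : O) : 0 < gw K k := by
  rw [gw_eq]; exact Real.exp_pos _

theorem id_sqrt {M n q g E : ℝ} (hM : 0 < M) (hn : 0 < n) (hq : 0 < q) (hg : 0 < g) (hE : 0 < E) :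
    M / (E * Real.sqrt q) * Real.sqrt (g ^ 2 * q / (M * n)) = Real.sqrt (M / n) * (g / E) := by
  obtain ⟨a, ha, rfl⟩ : ∃ a, 0 < a ∧ M = a ^ 2 :=
    ⟨Real.sqrt M, Real.sqrt_pos.2 hM, (Real.sq_sqrt hM.le).symm⟩
  obtain ⟨b, hb, rfl⟩ : ∃ b, 0 < b ∧ n = b ^ 2 :=
    ⟨Real.sqrt n, Real.sqrt_pos.2 hn, (Real.sq_sqrt hn.le).symm⟩
  obtain ⟨c, hc, rfl⟩ : ∃ c, 0 < c ∧ q = c ^ 2 :=
    ⟨Real.sqrt q, Real.sqrt_pos.2 hq, (Real.sq_sqrt hq.le).symm⟩
  have e1 : g ^ 2 * c ^ 2 / (a ^ 2 * b ^ 2) = (g * c / (a * b)) ^ 2 := by field_simp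
  have e2 : a ^ 2 / b ^ 2 = (a / b) ^ 2 := by field_simp
  rw [e1, e2, Real.sqrt_sq hc.le, Real.sqrt_sq (by positivity), Real.sqrt_sq (by positivity)]
  field_simp

theorem id_main {Δ Q : Finset O} (hΔ : PSet Δ) (hQ : PSet Q) (hd : Disjoint Q Δ) {M : ℝ}
    (hM : 0 < M) {b : O} (hb : b ≠ 0) :
    ∑ e ∈ Δ.powerset, (-1 : ℝ) ^ e.card * (M / (NS e * Real.sqrt (NS Q)) *
        (kp * Real.sqrt (NS (e.filter (· ∣ b)) ^ 2 * NS Q / (M * nm b)) * Ph Q)) =
      (if cop Δ b then 1 else 0) * (kp * Real.sqrt (M / nm b) * Ph (Q ∪ Δ)) := by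
  have hn : 0 < nm b := lt_of_lt_of_le one_pos (one_le_nm hb)
  have hq : 0 < NS Q := lt_of_lt_of_le one_pos hQ.one_le_NS
  have hPh : Ph (Q ∪ Δ) = Ph Q * Ph Δ := Finset.prod_union hd
  have h1 : ∀ e ∈ Δ.powerset, (-1 : ℝ) ^ e.card * (M / (NS e * Real.sqrt (NS Q)) *
        (kp * Real.sqrt (NS (e.filter (· ∣ b)) ^ 2 * NS Q / (M * nm b)) * Ph Q)) =
      (kp * Real.sqrt (M / nm b) * Ph Q) * ((-1) ^ e.card * (NS (e.filter (· ∣ b)) / NS e)) := by
    intro e he
    have he' : PSet e := hΔ.mono (Finset.mem_powerset.1 he)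
    have hE : 0 < NS e := lt_of_lt_of_le one_pos he'.one_le_NS
    have hg : 0 < NS (e.filter (· ∣ b)) :=
      lt_of_lt_of_le one_pos (he'.mono (Finset.filter_subset _ _)).one_le_NS
    have := id_sqrt hM hn hq hg hE
    calc _ = (-1 : ℝ) ^ e.card * kp * Ph Q * (M / (NS e * Real.sqrt (NS Q)) *
          Real.sqrt (NS (e.filter (· ∣ b)) ^ 2 * NS Q / (M * nm b))) := by ring
      _ = _ := by rw [this]; ring
  rw [Finset.sum_congr rfl h1, ← Finset.mul_sum, main_cancel hΔ, hPh]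
  ring

theorem id_zero {Δ Q : Finset O} (hQ : PSet Q) (M : ℝ) :
    ∑ e ∈ Δ.powerset, (-1 : ℂ) ^ e.card * (((M / (NS e * Real.sqrt (NS Q)) : ℝ) : ℂ) * ch Q 0) -
      (if cop Δ 0 then ch Q 0 else 0) = Zer M Δ Q := by
  have hc : cop Δ 0 ↔ Δ = ∅ := by
    constructor
    · intro h
      by_contra hne
      obtain ⟨p, hp⟩ := Finset.nonempty_iff_ne_empty.2 hne
      exact h p hp (dvd_zero p)
    · rintro rfl p hp
      simp at hp
  rw [hQ.ch_zero, Zer]
  by_cases h : Q = ∅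
  · subst h
    have h1 : NS (∅ : Finset O) = 1 := by simp [NS]
    simp only [if_true, h1, Real.sqrt_one, mul_one, hc]
    rw [Ph_expand, Finset.mul_sum]
    push_cast
    congr 1
    · refine Finset.sum_congr rfl fun e _ => ?_
      ring
    · split_ifs <;> simp
  · simp [h]

/-- `ker_split` for the left side of `poi2` and for each term on the right; `primal_sq`, `dual_sq`,
`ThS_eq`; the main terms cancel for each `b`:
`M/(NS e √NS Q) · √(NS g² NS Q/(M nm b)) = √(M/nm b) · NS g / NS e`, `main_cancel`,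
`Ph (Q ∪ Δ) = Ph Q * Ph Δ`; the terms at `0`: `PSet.ch_zero`, `Ph_expand`, `cop Δ 0 ↔ Δ = ∅`. -/
theorem TK_eq {Δ Q : Finset O} (hΔ : PSet Δ) (hQ : PSet Q) (hd : Disjoint Q Δ) {M K : ℝ}
    (hM : 0 < M) {B : Finset O} (hB : AllSq K B) :
    TK M K Δ Q = Zer M Δ Q - (1 / 6 : ℂ) * PErr M B Δ Q +
      ∑ e ∈ Δ.powerset, (-1) ^ e.card * ((1 / 6 : ℂ) * DErr M B e Q + Tl M K e Q) := by
  have hq : 0 < NS Q := lt_of_lt_of_le one_pos hQ.one_le_NS
  have hB0 : ∀ b ∈ B, b ≠ 0 := fun b hb => ((hB b).1 hb).1.ne_zero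
  -- the primal side
  have hf : Summable fun k : O => if cop Δ k then (gw M k : ℂ) * ch Q k else 0 := by
    have := summable_gw_mul hM (f := fun k => if cop Δ k then ch Q k else 0) (A := 1) (by
      intro k; split_ifs
      · exact hQ.norm_ch_le k
      · simp)
    refine this.congr fun k => ?_
    split_ifs <;> simp
  have h1 := ker_split hB hf
  have h1a : (∑' k : O, if Big K k then (if cop Δ k then (gw M k : ℂ) * ch Q k else 0) else 0) =
      TK M K Δ Q := by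
    unfold TK
    refine tsum_congr fun k => ?_
    by_cases ha : Big K k <;> by_cases hb : cop Δ k <;> simp [ha, hb]
  have h1b : ∑ b ∈ B, (∑' v : O, if v ≠ 0 then
        (if cop Δ (b * v ^ 2) then (gw M (b * v ^ 2) : ℂ) * ch Q (b * v ^ 2) else 0) else 0) =
      PErr M B Δ Q + ∑ b ∈ B, ch Q b *
        (((if cop Δ b then 1 else 0) * (kp * Real.sqrt (M / nm b) * Ph (Q ∪ Δ)) : ℝ) : ℂ) := by
    unfold PErr
    rw [← Finset.sum_add_distrib]
    refine Finset.sum_congr rfl fun b hb => ?_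
    have hn : 0 < nm b := lt_of_lt_of_le one_pos (one_le_nm (hB0 b hb))
    rw [primal_sq hΔ hQ hM (hB0 b hb), ThS_eq (hQ.union hΔ) (div_pos hM hn)]
    split_ifs <;> push_cast <;> ring
  rw [h1a, h1b, id_gw_zero, poi2 hΔ hQ hM] at h1
  -- the dual side
  have h2 : ∀ e ∈ Δ.powerset,
      (-1 : ℂ) ^ e.card * (((M / (NS e * Real.sqrt (NS Q)) : ℝ) : ℂ) *
        ∑' h : O, if dv e h then (gw (NS e ^ 2 * NS Q / M) h : ℂ) * ch Q h else 0) =
      (-1 : ℂ) ^ e.card * (((M / (NS e * Real.sqrt (NS Q)) : ℝ) : ℂ) * ch Q 0) +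
        (1 / 6 : ℂ) * ∑ b ∈ B, ch Q b * (((-1 : ℝ) ^ e.card * (M / (NS e * Real.sqrt (NS Q)) *
          (kp * Real.sqrt (NS (e.filter (· ∣ b)) ^ 2 * NS Q / (M * nm b)) * Ph Q)) : ℝ) : ℂ) +
        (-1) ^ e.card * ((1 / 6 : ℂ) * DErr M B e Q + Tl M K e Q) := by
    intro e he
    have heΔ : e ⊆ Δ := Finset.mem_powerset.1 he
    have he' : PSet e := hΔ.mono heΔ
    have hE : 0 < NS e := lt_of_lt_of_le one_pos he'.one_le_NS
    have hH : 0 < NS e ^ 2 * NS Q / M := by positivity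
    have hg : Summable fun h : O =>
        if dv e h then (gw (NS e ^ 2 * NS Q / M) h : ℂ) * ch Q h else 0 := by
      have := summable_gw_mul hH (f := fun k => if dv e k then ch Q k else 0) (A := 1) (by
        intro k; split_ifs
        · exact hQ.norm_ch_le k
        · simp)
      refine this.congr fun k => ?_
      split_ifs <;> simp
    have h3 := ker_split hB hg
    have h3a : (∑' h : O, if Big K h then
          (if dv e h then (gw (NS e ^ 2 * NS Q / M) h : ℂ) * ch Q h else 0) else 0) =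
        ∑' h : O, if Big K h ∧ dv e h then (gw (NS e ^ 2 * NS Q / M) h : ℂ) * ch Q h else 0 := by
      refine tsum_congr fun k => ?_
      by_cases ha : Big K k <;> by_cases hb : dv e k <;> simp [ha, hb]
    have h3b : ∑ b ∈ B, (∑' v : O, if v ≠ 0 then (if dv e (b * v ^ 2) then
          (gw (NS e ^ 2 * NS Q / M) (b * v ^ 2) : ℂ) * ch Q (b * v ^ 2) else 0) else 0) =
        ∑ b ∈ B, ch Q b * (Er Q (NS (e.filter (· ∣ b)) ^ 2 * NS Q / (M * nm b)) : ℂ) +
          ∑ b ∈ B, ch Q b *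
            ((kp * Real.sqrt (NS (e.filter (· ∣ b)) ^ 2 * NS Q / (M * nm b)) * Ph Q : ℝ) : ℂ) := by
      rw [← Finset.sum_add_distrib]
      refine Finset.sum_congr rfl fun b hb => ?_
      have hn : 0 < nm b := lt_of_lt_of_le one_pos (one_le_nm (hB0 b hb))
      have hg : 0 < NS (e.filter (· ∣ b)) :=
        lt_of_lt_of_le one_pos (he'.mono (Finset.filter_subset _ _)).one_le_NS
      rw [dual_sq he' hQ (hd.symm.mono_left heΔ) hM (hB0 b hb), ThS_eq hQ (by positivity)]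
      push_cast; ring
    have h0 : dv e 0 := fun p _ => dvd_zero p
    rw [h3a, h3b, if_pos h0, id_gw_zero] at h3
    have h4 : ∑ b ∈ B, ch Q b * (((-1 : ℝ) ^ e.card * (M / (NS e * Real.sqrt (NS Q)) *
          (kp * Real.sqrt (NS (e.filter (· ∣ b)) ^ 2 * NS Q / (M * nm b)) * Ph Q)) : ℝ) : ℂ) =
        (-1 : ℂ) ^ e.card * ((M / (NS e * Real.sqrt (NS Q)) : ℝ) : ℂ) * ∑ b ∈ B, ch Q b *
            ((kp * Real.sqrt (NS (e.filter (· ∣ b)) ^ 2 * NS Q / (M * nm b)) * Ph Q : ℝ) : ℂ) := by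
      rw [Finset.mul_sum]
      refine Finset.sum_congr rfl fun b _ => ?_
      rw [Complex.ofReal_mul, Complex.ofReal_mul]
      simp only [Complex.ofReal_pow, Complex.ofReal_neg, Complex.ofReal_one]
      ring
    rw [h3, h4, DErr, Tl, Complex.ofReal_one]
    ring
  rw [Finset.sum_congr rfl h2, Finset.sum_add_distrib, Finset.sum_add_distrib,
    ← Finset.mul_sum, Finset.sum_comm] at h1
  have h5 : ∑ b ∈ B, ∑ e ∈ Δ.powerset, ch Q b *
        (((-1 : ℝ) ^ e.card * (M / (NS e * Real.sqrt (NS Q)) *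
          (kp * Real.sqrt (NS (e.filter (· ∣ b)) ^ 2 * NS Q / (M * nm b)) * Ph Q)) : ℝ) : ℂ) =
      ∑ b ∈ B, ch Q b *
        (((if cop Δ b then 1 else 0) * (kp * Real.sqrt (M / nm b) * Ph (Q ∪ Δ)) : ℝ) : ℂ) := by
    refine Finset.sum_congr rfl fun b hb => ?_
    rw [← Finset.mul_sum, ← Complex.ofReal_sum, id_main hΔ hQ hd hM (hB0 b hb)]
  rw [h5, Complex.ofReal_one, one_mul] at h1
  rw [← id_zero hQ M]
  linear_combination -h1

/-- `Big.lt`, `gw` is monotone in the length, `tail_gw` with `H = N²/M`, `exp (-3 log N) = N⁻³` -/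
theorem norm_Tl_le : ∃ C : ℝ, 0 < C ∧ ∀ (M N K : ℝ) (e Q : Finset O), 0 < M → 1 ≤ N → 0 < K →
    PSet e → PSet Q → NS e ^ 2 * NS Q ≤ N ^ 2 → 3 * N ^ 2 * Real.log N ≤ K * M →
    ‖Tl M K e Q‖ ≤ C / N := by
  obtain ⟨C, hC, hT⟩ := tail_gw
  refine ⟨C, hC, fun M N K e Q hM hN hK he hQ hle hlog => ?_⟩
  have hN0 : 0 < N := lt_of_lt_of_le one_pos hN
  have hE : 1 ≤ NS e := he.one_le_NS
  have hq : 1 ≤ NS Q := hQ.one_le_NS
  have hH : 0 < N ^ 2 / M := by positivity
  have hH' : 0 < NS e ^ 2 * NS Q / M := by positivity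
  have hsq : 1 ≤ Real.sqrt (NS Q) := Real.one_le_sqrt.2 hq
  have hc : M / (NS e * Real.sqrt (NS Q)) ≤ M :=
    div_le_self hM.le (one_le_mul_of_one_le_of_one_le hE hsq)
  have hc0 : 0 ≤ M / (NS e * Real.sqrt (NS Q)) := by positivity
  have hsum : Summable fun h : O => if K < nm h then gw (N ^ 2 / M) h else 0 := by
    refine Summable.of_nonneg_of_le (fun h => ?_) (fun h => ?_) (summable_gw hH)
    · split_ifs
      · exact (id_gw_pos _ _).le
      · exact le_rfl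
    · split_ifs
      · exact le_rfl
      · exact (id_gw_pos _ _).le
  have hb : ∀ h : O, ‖if Big K h ∧ dv e h then (gw (NS e ^ 2 * NS Q / M) h : ℂ) * ch Q h else 0‖ ≤
      if K < nm h then gw (N ^ 2 / M) h else 0 := by
    intro h
    by_cases hh : Big K h ∧ dv e h
    · rw [if_pos hh, if_pos hh.1.lt, norm_mul, Complex.norm_real,
        Real.norm_of_nonneg (id_gw_pos _ _).le]
      calc _ ≤ gw (NS e ^ 2 * NS Q / M) h * 1 :=
            mul_le_mul_of_nonneg_left (hQ.norm_ch_le h) (id_gw_pos _ _).le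
        _ ≤ gw (N ^ 2 / M) h := by
            rw [mul_one, gw_eq, gw_eq]
            refine Real.exp_le_exp.2 (neg_le_neg ?_)
            exact div_le_div_of_nonneg_left (mul_nonneg cc_pos.le (nm_nonneg h)) hH'
              (div_le_div_of_nonneg_right hle hM.le)
    · rw [if_neg hh, norm_zero]
      split_ifs
      · exact (id_gw_pos _ _).le
      · exact le_rfl
  have h1 := tsum_of_norm_bounded hsum.hasSum hb
  have h2 := hT (N ^ 2 / M) K hH hK.le
  have h3 : Real.exp (-(K / (N ^ 2 / M))) ≤ (N ^ 3)⁻¹ := by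
    have : 3 * Real.log N ≤ K / (N ^ 2 / M) := by
      rw [le_div_iff₀ hH, ← mul_div_assoc, div_le_iff₀ hM]
      linarith
    calc _ ≤ Real.exp (-(3 * Real.log N)) := Real.exp_le_exp.2 (neg_le_neg this)
      _ = (N ^ 3)⁻¹ := by
        rw [Real.exp_neg, show (3 : ℝ) * Real.log N = Real.log (N ^ 3) by
          rw [Real.log_pow]; norm_num, Real.exp_log (by positivity)]
  rw [Tl, norm_mul, Complex.norm_real, Real.norm_of_nonneg hc0]
  calc _ ≤ M * (C * (N ^ 2 / M) * (N ^ 3)⁻¹) := by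
        refine mul_le_mul hc (h1.trans (h2.trans ?_)) (norm_nonneg _) hM.le
        exact mul_le_mul_of_nonneg_left h3 (by positivity)
    _ = C / N := by field_simp

theorem norm_Zer_le {M : ℝ} (hM : 1 ≤ M) {Δ : Finset O} (hΔ : PSet Δ) (Q : Finset O) :
    ‖Zer M Δ Q‖ ≤ if Q = ∅ then M else 0 := by
  unfold Zer
  split_ifs with h1 h2
  · have := hΔ.Ph_mem
    rw [Complex.norm_real, Real.norm_eq_abs, abs_le]
    constructor <;> nlinarith [this.1, this.2]
  · have := hΔ.Ph_mem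
    rw [Complex.norm_real, Real.norm_eq_abs, abs_le]
    constructor <;> nlinarith [this.1, this.2]
  · simp

end Crest.Agent.R17.E
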