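import Crest.Agent.R17.E.Cols
import Crest.Agent.R17.E.Th

/-!
Row 17, block E: the theta identity for quadratic characters, with a mask, and the sums over squares.
-/

set_option autoImplicit false

namespace Crest.Agent.R17.E

open scoped Classical ComplexConjugate

theorem poa_gw_mul {K : ℝ} {d : O} (hd : d ≠ 0) (k : O) : gw K (d * k) = gw (K / nm d) k := by
  have h : nm d ≠ 0 := (lt_of_lt_of_le one_pos (one_le_nm hd)).ne'
  unfold gw
  rw [nm_mul]
  congr 1
  by_cases hK : K = 0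
  · simp [hK]
  · have h3 : Real.sqrt 3 ≠ 0 := by positivity
    field_simp

theorem poa_odd {Q : Finset O} (h : ch Q (-1) = -1) (K : ℝ) :
    ∑' k : O, (gw K k : ℂ) * ch Q k = 0 := by
  have h1 : ∑' k : O, (gw K k : ℂ) * ch Q k = ∑' k : O, (gw K (-k) : ℂ) * ch Q (-k) :=
    ((Equiv.neg O).tsum_eq fun k => (gw K k : ℂ) * ch Q k).symm
  have h2 : ∀ k : O, (gw K (-k) : ℂ) * ch Q (-k) = -((gw K k : ℂ) * ch Q k) := by
    intro k
    have e1 : -k = (-1) * k := by ring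
    rw [e1, ch_mul, h, poa_gw_mul (by norm_num), nm_unit isUnit_one.neg, div_one]
    ring
  simp only [h2, tsum_neg] at h1
  linear_combination h1 / 2

/-- If `ch Q (-1) = -1` both sums vanish (`k ↦ -k`, `Equiv.neg`, `tsum`).  Otherwise `poisson` with
`Ψ = ch Q`, modulus `pr Q`, and `gauss_qd` (`qd_pr`, `nm_pr`, `PSet.sq`, `PSet.ch_per`). -/
theorem poi1 {Q : Finset O} (hQ : PSet Q) {M : ℝ} (hM : 0 < M) :
    ∑' k : O, (gw M k : ℂ) * ch Q k =
      ((M / Real.sqrt (NS Q) : ℝ) : ℂ) * ∑' h : O, (gw (NS Q / M) h : ℂ) * ch Q h := by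
  rcases hQ.ch_neg_one with h | h
  · obtain ⟨h1, h2, h3, -⟩ := hQ.sq
    have hN : 0 < NS Q := lt_of_lt_of_le one_pos hQ.one_le_NS
    have hp := poisson hQ.pr_ne_zero (ch Q) (fun a b hab => hQ.ch_per hab) hM
    have hch : ch Q = fun y => qd y (pr Q) := funext fun y => (qd_pr Q y).symm
    have hF : ∀ x : O, FT (pr Q) (ch Q) x = ch Q x * (Real.sqrt (NS Q) : ℂ) := by
      intro x
      rw [← qd_pr Q x, ← nm_pr, ← gauss_qd h1 h2 h3 (by rw [qd_pr]; exact h) x, hch]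
    simp only [hF, nm_pr] at hp
    have e1 : ∑' k : O, (gw M k : ℂ) * ch Q k = ∑' k : O, ch Q k * (gw M k : ℂ) :=
      tsum_congr fun k => mul_comm _ _
    have e2 : ∑' x : O, ch Q x * (Real.sqrt (NS Q) : ℂ) * (gw (NS Q / M) x : ℂ) =
        (Real.sqrt (NS Q) : ℂ) * ∑' x : O, (gw (NS Q / M) x : ℂ) * ch Q x := by
      rw [← tsum_mul_left]
      exact tsum_congr fun x => by ring
    rw [e1, hp, e2, ← mul_assoc, ← Complex.ofReal_mul]
    congr 2
    have hs : 0 < Real.sqrt (NS Q) := Real.sqrt_pos.2 hN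
    have hss : Real.sqrt (NS Q) * Real.sqrt (NS Q) = NS Q := Real.mul_self_sqrt hN.le
    rw [div_mul_eq_mul_div, div_eq_div_iff hN.ne' hs.ne', mul_assoc, hss]
  · rw [poa_odd h, poa_odd h, mul_zero]

/-- `cop_expand`, exchange the finite sum and `tsum` (`summable_gw_mul`), `tsum_dv` on both sides:
`gw M (pr e * k) = gw (M / NS e) k`, `gw (NS e ^ 2 * NS Q / M) (pr e * h) = gw (NS Q / (M / NS e)) h`,
`ch_mul`, `poi1` with `M / NS e`. -/
theorem poi2 {Δ Q : Finset O} (hΔ : PSet Δ) (hQ : PSet Q) {M : ℝ} (hM : 0 < M) :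
    ∑' k : O, (if cop Δ k then (gw M k : ℂ) * ch Q k else 0) =
      ∑ e ∈ Δ.powerset, (-1) ^ e.card * (((M / (NS e * Real.sqrt (NS Q)) : ℝ) : ℂ) *
        ∑' h : O, if dv e h then (gw (NS e ^ 2 * NS Q / M) h : ℂ) * ch Q h else 0) := by
  have hb : ∀ (e : Finset O) (k : O), ‖(if dv e k then ch Q k else 0 : ℂ)‖ ≤ 1 := by
    intro e k
    split_ifs
    · exact hQ.norm_ch_le k
    · simp
  have h1 : ∀ k : O, (if cop Δ k then (gw M k : ℂ) * ch Q k else 0) =
      ∑ e ∈ Δ.powerset, (-1) ^ e.card * ((gw M k : ℂ) * if dv e k then ch Q k else 0) := by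
    intro k
    have h := congrArg (fun x : ℝ => (x : ℂ) * ((gw M k : ℂ) * ch Q k)) (cop_expand Δ k)
    simp only [Complex.ofReal_sum, Finset.sum_mul] at h
    calc (if cop Δ k then (gw M k : ℂ) * ch Q k else 0)
        = (((if cop Δ k then (1 : ℝ) else 0) : ℝ) : ℂ) * ((gw M k : ℂ) * ch Q k) := by
          split_ifs <;> simp
      _ = _ := by
          rw [h]
          refine Finset.sum_congr rfl fun e _ => ?_
          split_ifs <;> simp
  rw [tsum_congr h1, Summable.tsum_finsetSum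
    fun e _ => (summable_gw_mul hM (hb e)).mul_left _]
  refine Finset.sum_congr rfl fun e he => ?_
  have heP : PSet e := hΔ.mono (Finset.mem_powerset.1 he)
  have hN : 0 < NS e := lt_of_lt_of_le one_pos heP.one_le_NS
  rw [tsum_mul_left]
  congr 1
  have e1 : ∑' k : O, ((gw M k : ℂ) * if dv e k then ch Q k else 0) =
      ∑' k : O, if dv e k then (gw M k : ℂ) * ch Q k else 0 :=
    tsum_congr fun k => by split_ifs <;> simp
  have e2 : ∀ K : ℝ, ∑' k : O, (gw K (pr e * k) : ℂ) * ch Q (pr e * k) =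
      ch Q (pr e) * ∑' k : O, (gw (K / NS e) k : ℂ) * ch Q k := by
    intro K
    rw [← tsum_mul_left]
    refine tsum_congr fun k => ?_
    rw [poa_gw_mul heP.pr_ne_zero, nm_pr, ch_mul]
    ring
  rw [e1, tsum_dv heP fun k => (gw M k : ℂ) * ch Q k,
    tsum_dv heP fun k => (gw (NS e ^ 2 * NS Q / M) k : ℂ) * ch Q k, e2, e2,
    poi1 hQ (div_pos hM hN)]
  have e3 : NS e ^ 2 * NS Q / M / NS e = NS Q / (M / NS e) := by
    field_simp
  rw [e3, div_div]
  ring

theorem poib_tsum {d : Finset O} (hd : PSet d) (Y : ℝ) :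
    ∑' v : O, (if dv d v then (if v = 0 then 0 else Real.exp (-(cc * nm v ^ 2 / Y))) else 0) =
      Th (Y / NS d ^ 2) := by
  have h := tsum_dv hd fun v => ((if v = 0 then 0 else Real.exp (-(cc * nm v ^ 2 / Y)) : ℝ) : ℂ)
  apply Complex.ofReal_injective
  rw [Th, Complex.ofReal_tsum, Complex.ofReal_tsum]
  simp only [apply_ite ((↑) : ℝ → ℂ), Complex.ofReal_zero] at h ⊢
  rw [h]
  refine tsum_congr fun v => ?_
  simp only [mul_eq_zero, hd.pr_ne_zero, false_or]
  rw [nm_mul, nm_pr, div_div_eq_mul_div, mul_pow]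
  congr 5
  ring

theorem poib_cop {Δ : Finset O} (hΔ : PSet Δ) (a b : O) : cop Δ (a * b) ↔ cop Δ a ∧ cop Δ b := by
  simp only [cop, ← forall₂_and, ← not_or]
  exact forall₂_congr fun p hp => not_congr (hΔ p hp).1.dvd_mul

theorem poib_cop_sq {Δ : Finset O} (hΔ : PSet Δ) (b v : O) :
    cop Δ (b * v ^ 2) ↔ cop Δ b ∧ cop Δ v := by
  rw [poib_cop hΔ, sq, poib_cop hΔ, and_self]

theorem poib_ch {Q : Finset O} (hQ : PSet Q) (b v : O) :
    ch Q (b * v ^ 2) = ch Q b * if cop Q v then 1 else 0 := by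
  rw [ch_mul, sq, ch_mul, hQ.ch_sq]

/-- `cop_expand`, `tsum_dv` (cast to `ℂ`, `Complex.ofReal_tsum`), `Ph_expand`,
`√(Y / NS d ^ 2) = √Y / NS d` -/
theorem ThS_eq {S : Finset O} (hS : PSet S) {Y : ℝ} (hY : 0 < Y) :
    ThS S Y = Er S Y + kp * Real.sqrt Y * Ph S := by
  have h1 : ∀ v : O, (if v ≠ 0 ∧ cop S v then Real.exp (-(cc * nm v ^ 2 / Y)) else 0) =
      ∑ d ∈ S.powerset, (-1) ^ d.card *
        (if dv d v then (if v = 0 then 0 else Real.exp (-(cc * nm v ^ 2 / Y))) else 0) := fun v => by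
    have h2 := congrArg (· * (if v = 0 then 0 else Real.exp (-(cc * nm v ^ 2 / Y)))) (cop_expand S v)
    simp only [Finset.sum_mul, mul_assoc, ite_mul, one_mul, zero_mul] at h2
    rw [← h2]
    by_cases h0 : v = 0 <;> by_cases hc : cop S v <;> simp [h0, hc]
  have h3 : ∀ d ∈ S.powerset, Summable fun v : O => (-1 : ℝ) ^ d.card *
      (if dv d v then (if v = 0 then 0 else Real.exp (-(cc * nm v ^ 2 / Y))) else 0) := fun d _ => by
    refine Summable.mul_left _ (Summable.of_nonneg_of_le (fun v => ?_) (fun v => ?_)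
      (summable_exp_sq (div_pos cc_pos hY)))
    · split_ifs <;> positivity
    · rw [div_mul_eq_mul_div]
      split_ifs <;> first | positivity | exact le_rfl
  rw [ThS, tsum_congr h1, Summable.tsum_finsetSum h3, Er, Ph_expand, Finset.mul_sum,
    ← Finset.sum_add_distrib]
  refine Finset.sum_congr rfl fun d hd => ?_
  have hd' := hS.mono (Finset.mem_powerset.1 hd)
  have h4 : 0 < NS d := one_pos.trans_le hd'.one_le_NS
  rw [tsum_mul_left, poib_tsum hd', Rm, Real.sqrt_div hY.le, Real.sqrt_sq h4.le]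
  ring

/-- termwise: `ch Q (b v²) = ch Q b · 1_{cop Q v}`, `cop Δ (b v²) ↔ cop Δ b ∧ cop Δ v` -/
theorem primal_sq {Δ Q : Finset O} (hΔ : PSet Δ) (hQ : PSet Q) {M : ℝ} (hM : 0 < M) {b : O}
    (hb : b ≠ 0) :
    ∑' v : O, (if v ≠ 0 then
        (if cop Δ (b * v ^ 2) then (gw M (b * v ^ 2) : ℂ) * ch Q (b * v ^ 2) else 0) else 0) =
      (if cop Δ b then 1 else 0) * ch Q b * (ThS (Q ∪ Δ) (M / nm b) : ℂ) := by
  rw [ThS, Complex.ofReal_tsum, ← tsum_mul_left]
  refine tsum_congr fun v => ?_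
  have h1 : cop (Q ∪ Δ) v ↔ cop Q v ∧ cop Δ v := by
    simp only [cop, Finset.mem_union, or_imp, forall_and]
  have h2 : gw M (b * v ^ 2) = Real.exp (-(cc * nm v ^ 2 / (M / nm b))) := by
    rw [gw_eq, nm_mul, nm_pow, div_div_eq_mul_div]
    congr 3
    ring
  rw [poib_ch hQ, h2]
  simp only [poib_cop_sq hΔ, h1]
  by_cases h0 : v = 0
  · simp [h0]
  by_cases h3 : cop Δ b <;> by_cases h4 : cop Δ v <;> by_cases h5 : cop Q v <;>
    simp [h0, h3, h4, h5, mul_comm]

/-- `g = e.filter (· ∣ b)`, `e' = e \ g`: `dv e (b v²) ↔ dv e' v`; `tsum_dv` with `e'`;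
`cop Q (pr e' * v) ↔ cop Q v` (`dvd_pr_iff`, disjointness); `NS e = NS g * NS e'` -/
theorem dual_sq {e Q : Finset O} (he : PSet e) (hQ : PSet Q) (hd : Disjoint e Q) {M : ℝ}
    (hM : 0 < M) {b : O} (hb : b ≠ 0) :
    ∑' v : O, (if v ≠ 0 then
        (if dv e (b * v ^ 2) then
          (gw (NS e ^ 2 * NS Q / M) (b * v ^ 2) : ℂ) * ch Q (b * v ^ 2) else 0) else 0) =
      ch Q b * (ThS Q (NS (e.filter (· ∣ b)) ^ 2 * NS Q / (M * nm b)) : ℂ) := by
  have he' : PSet (e.filter fun p => ¬ p ∣ b) := he.mono (Finset.filter_subset _ _)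
  have hg : PSet (e.filter (· ∣ b)) := he.mono (Finset.filter_subset _ _)
  have h1 : ∀ v, dv e (b * v ^ 2) ↔ dv (e.filter fun p => ¬ p ∣ b) v := fun v => by
    simp only [dv, Finset.mem_filter, and_imp]
    refine forall₂_congr fun p hp => ?_
    rw [(he p hp).1.dvd_mul, (he p hp).1.dvd_pow_iff_dvd two_ne_zero]
    exact or_iff_not_imp_left
  have h2 : NS e = NS (e.filter (· ∣ b)) * NS (e.filter fun p => ¬ p ∣ b) :=
    (Finset.prod_filter_mul_prod_filter_not _ _ _).symm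
  have h3 : cop Q (pr (e.filter fun p => ¬ p ∣ b)) := fun p hp h =>
    Finset.disjoint_left.1 hd (Finset.mem_filter.1 ((he'.dvd_pr_iff (hQ p hp)).1 h)).1 hp
  have h4 := tsum_dv he' fun v => if v ≠ 0 then
    (gw (NS e ^ 2 * NS Q / M) (b * v ^ 2) : ℂ) * ch Q (b * v ^ 2) else 0
  have h5 : 0 < NS (e.filter fun p => ¬ p ∣ b) := one_pos.trans_le he'.one_le_NS
  have h6 : 0 < NS (e.filter (· ∣ b)) := one_pos.trans_le hg.one_le_NS
  have h7 : 0 < NS Q := one_pos.trans_le hQ.one_le_NS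
  have h8 : 0 < nm b := one_pos.trans_le (one_le_nm hb)
  rw [ThS, Complex.ofReal_tsum, ← tsum_mul_left]
  refine Eq.trans (tsum_congr fun v => ?_) (h4.trans (tsum_congr fun v => ?_))
  · simp only [h1]
    split_ifs <;> rfl
  · have h9 : gw (NS e ^ 2 * NS Q / M) (b * (pr (e.filter fun p => ¬ p ∣ b) * v) ^ 2) =
        Real.exp (-(cc * nm v ^ 2 / (NS (e.filter (· ∣ b)) ^ 2 * NS Q / (M * nm b)))) := by
      rw [gw_eq, nm_mul, nm_pow, nm_mul, nm_pr, h2]
      congr 2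
      field_simp
    rw [poib_ch hQ, h9]
    simp only [poib_cop hQ, h3, true_and, ne_eq, mul_eq_zero, he'.pr_ne_zero, false_or]
    by_cases h0 : v = 0
    · simp [h0]
    by_cases h5 : cop Q v <;> simp [h0, h5, mul_comm]

end Crest.Agent.R17.E
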