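import Crest.Agent.R17.E.Th

/-!
Row 17, block E: `exp (-cc² x²/(4b))` as a superposition of complex exponentials and the bound
`∑_{v ≠ 0} exp (-cc N(v)² e^{-u}) = kp e^{u/2} + O(1)` in the strip `|Im u| < π/4`.
-/

set_option autoImplicit false

namespace Crest.Agent.R17.E

open scoped Classical ComplexConjugate

open MeasureTheory

/-- the Gaussian density `(π/b)^(-1/2) exp (b (1 + iτ)²)` -/
noncomputable def psi (b : ℂ) (τ : ℝ) : ℂ :=
  ((Real.pi / b) ^ (1 / 2 : ℂ))⁻¹ * Complex.exp (b * (1 + Complex.I * τ) ^ 2)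

/-- `Th (e^u)` for complex `u` -/
noncomputable def ThC (u : ℂ) : ℂ :=
  ∑' v : O, if v = 0 then 0 else Complex.exp (-(cc * nm v ^ 2 * Complex.exp (-u)))

/-- `integrable_cexp_quadratic'` -/
theorem integrable_psi {b : ℂ} (hb : 0 < b.re) : Integrable (psi b) := by
  have h := (integrable_cexp_quadratic hb (2 * Complex.I * b) b).const_mul
    ((Real.pi / b) ^ (1 / 2 : ℂ))⁻¹
  refine h.congr (Filter.Eventually.of_forall fun τ => ?_)
  simp only [psi]
  congr 2
  linear_combination (-(b * (τ : ℂ) ^ 2)) * Complex.I_sq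

/-- `integral_cexp_quadratic` with `-b`, `c = 2 i b - i y`, `d = b - y` -/
theorem integral_psi {b : ℂ} (hb : 0 < b.re) (y : ℝ) :
    ∫ τ : ℝ, Complex.exp (-(y * (1 + Complex.I * τ))) * psi b τ =
      Complex.exp (-((y : ℂ) ^ 2 / (4 * b))) := by
  have hb0 : b ≠ 0 := fun h => by simp [h] at hb
  have hp : (Real.pi / b : ℂ) ^ (1 / 2 : ℂ) ≠ 0 := by
    rw [Ne, Complex.cpow_eq_zero_iff, not_and_or]
    exact Or.inl (div_ne_zero (by exact_mod_cast Real.pi_ne_zero) hb0)
  have h1 : ∀ τ : ℝ, Complex.exp (-(y * (1 + Complex.I * τ))) * psi b τ =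
      ((Real.pi / b) ^ (1 / 2 : ℂ))⁻¹ * Complex.exp (-b * (τ : ℂ) ^ 2 +
        (2 * Complex.I * b - Complex.I * y) * τ + (b - y)) := fun τ => by
    rw [psi, mul_left_comm, ← Complex.exp_add]
    congr 2
    linear_combination (b * (τ : ℂ) ^ 2) * Complex.I_sq
  simp only [h1]
  rw [integral_const_mul, integral_cexp_quadratic (by simpa using hb), neg_neg, ← mul_assoc,
    inv_mul_cancel₀ hp, one_mul]
  congr 1
  field_simp
  linear_combination ((2 * b - y) ^ 2) * Complex.I_sq

/-- `(1+iτ)⁻¹ = ∫_{y>0} exp (-y (1+iτ))` (`integral_cexp_neg_mul…`/`integral_exp_mul_complex_Ioi`), Fubini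
(`integral_integral_swap`, the norm is `exp (-y) ‖psi b τ‖`), `integral_psi`,
`integral_gaussian_complex_Ioi` -/
theorem integral_psi_inv {b : ℂ} (hb : 0 < b.re) :
    ∫ τ : ℝ, (1 + Complex.I * τ)⁻¹ * psi b τ = (Real.pi / (4 * b)⁻¹) ^ (1 / 2 : ℂ) / 2 := by
  have hb0 : b ≠ 0 := fun h => by simp [h] at hb
  have h1 : ∀ τ : ℝ, (1 + Complex.I * τ)⁻¹ * psi b τ =
      ∫ y in Set.Ioi (0 : ℝ), Complex.exp (-(y * (1 + Complex.I * τ))) * psi b τ := fun τ => by
    have := integral_exp_mul_complex_Ioi (a := -(1 + Complex.I * τ)) (by simp) 0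
    rw [integral_mul_const]
    congr 1
    simp only [Complex.ofReal_zero, mul_zero, Complex.exp_zero, neg_div_neg_eq, one_div] at this
    rw [← this]
    congr 1
    funext y
    congr 1
    ring
  have hc : Continuous (psi b) := by unfold psi; fun_prop
  have hint : Integrable (Function.uncurry fun (τ y : ℝ) =>
      Complex.exp (-(y * (1 + Complex.I * τ))) * psi b τ)
      (volume.prod (volume.restrict (Set.Ioi (0 : ℝ)))) := by
    have h2 : Integrable (fun p : ℝ × ℝ => ‖psi b p.1‖ * Real.exp (-p.2))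
        (volume.prod (volume.restrict (Set.Ioi (0 : ℝ)))) :=
      (integrable_psi hb).norm.mul_prod (integrableOn_exp_neg_Ioi 0)
    refine h2.mono' (Continuous.aestronglyMeasurable ?_) (Filter.Eventually.of_forall fun p => ?_)
    · unfold Function.uncurry
      fun_prop
    · simp only [Function.uncurry, norm_mul, Complex.norm_exp]
      rw [mul_comm]
      simp
  simp only [h1]
  rw [integral_integral_swap hint]
  simp only [integral_psi hb]
  have h4 : 0 < ((4 * b)⁻¹).re := by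
    rw [Complex.inv_re]
    exact div_pos (by simpa using hb) (Complex.normSq_pos.2 (by simpa using hb0))
  rw [← integral_gaussian_complex_Ioi h4]
  congr 1
  funext y
  congr 1
  ring

theorem supa_norm {y : ℝ} (hy : |y| ≤ Real.pi / 4) (τ : ℝ) :
    (1 + |τ|) * ‖psi (cc / 4 * Complex.exp (Complex.I * y)) τ‖ ≤
      ((Real.pi / (cc / 4)) ^ (1 / 2 : ℝ))⁻¹ *
        Real.exp (cc / 4 + 4 * (cc / 2 + 1) ^ 2 / cc) * Real.exp (-(cc / 16) * τ ^ 2) := by
  have hc := cc_pos
  have hcos : 1 / 2 ≤ Real.cos y := by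
    rw [← Real.cos_abs, ← Real.cos_pi_div_three]
    exact Real.cos_le_cos_of_nonneg_of_le_pi (abs_nonneg _) (by linarith [Real.pi_pos])
      (by linarith [Real.pi_pos])
  have hn : ‖(Real.pi / (cc / 4 * Complex.exp (Complex.I * y)) : ℂ) ^ (1 / 2 : ℂ)‖ =
      (Real.pi / (cc / 4)) ^ (1 / 2 : ℝ) := by
    rw [show (1 / 2 : ℂ) = ((1 / 2 : ℝ) : ℂ) by push_cast; ring, Complex.norm_cpow_real]
    congr 1
    rw [norm_div, norm_mul, mul_comm Complex.I, Complex.norm_exp_ofReal_mul_I]
    simp [abs_of_pos hc, abs_of_pos Real.pi_pos]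
  have hre : (cc / 4 * Complex.exp (Complex.I * y) * (1 + Complex.I * τ) ^ 2).re =
      cc / 4 * (Real.cos y * (1 - τ ^ 2) - 2 * Real.sin y * τ) := by
    rw [mul_comm Complex.I (y : ℂ), Complex.exp_mul_I, ← Complex.ofReal_cos, ← Complex.ofReal_sin]
    simp [pow_two, -Complex.ofReal_cos, -Complex.ofReal_sin]
    ring
  rw [psi, norm_mul, norm_inv, hn, Complex.norm_exp, hre, mul_left_comm,
    mul_assoc _ (Real.exp _) (Real.exp _), ← Real.exp_add]
  refine mul_le_mul_of_nonneg_left ?_ (by positivity)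
  have h1 : 1 + |τ| ≤ Real.exp |τ| := by linarith [Real.add_one_le_exp |τ|]
  refine (mul_le_mul_of_nonneg_right h1 (Real.exp_pos _).le).trans ?_
  rw [← Real.exp_add, Real.exp_le_exp]
  have h2 : -(Real.sin y * τ) ≤ |τ| := by
    refine (neg_le_abs _).trans ?_
    rw [abs_mul]
    exact mul_le_of_le_one_left (abs_nonneg _) (Real.abs_sin_le_one y)
  have h3 : Real.cos y * (1 - τ ^ 2) ≤ 1 - τ ^ 2 / 2 := by
    nlinarith [Real.cos_le_one y, sq_nonneg τ]
  have h4 : cc / 4 * (Real.cos y * (1 - τ ^ 2) - 2 * Real.sin y * τ) ≤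
      cc / 4 * (1 - τ ^ 2 / 2 + 2 * |τ|) :=
    mul_le_mul_of_nonneg_left (by linarith) (by positivity)
  have h5 : (cc / 2 + 1) * |τ| ≤ 4 * (cc / 2 + 1) ^ 2 / cc + cc / 16 * τ ^ 2 := by
    rw [← sq_abs τ, div_add' _ _ _ hc.ne', le_div_iff₀ hc]
    nlinarith [sq_nonneg (2 * (cc / 2 + 1) - cc / 4 * |τ|)]
  linarith

/-- uniform first moment on the arc `b = (cc/4) e^{iy}`, `|y| ≤ π/4`: `Re b ≥ cc/8`, `‖b‖ = cc/4`,
`‖psi b τ‖ ≤ C exp (-(cc/8) τ² + (cc/2) |τ|)` -/
theorem psi_moment : ∃ C : ℝ, ∀ y : ℝ, |y| ≤ Real.pi / 4 →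
    Integrable (fun τ : ℝ => (1 + |τ|) * ‖psi (cc / 4 * Complex.exp (Complex.I * y)) τ‖) ∧
    ∫ τ : ℝ, (1 + |τ|) * ‖psi (cc / 4 * Complex.exp (Complex.I * y)) τ‖ ≤ C := by
  have hc := cc_pos
  have hg := (integrable_exp_neg_mul_sq (b := cc / 16) (by positivity)).const_mul
    (((Real.pi / (cc / 4)) ^ (1 / 2 : ℝ))⁻¹ * Real.exp (cc / 4 + 4 * (cc / 2 + 1) ^ 2 / cc))
  have hi : ∀ y : ℝ, |y| ≤ Real.pi / 4 → Integrable
      (fun τ : ℝ => (1 + |τ|) * ‖psi (cc / 4 * Complex.exp (Complex.I * y)) τ‖) := by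
    intro y hy
    refine hg.mono' (Continuous.aestronglyMeasurable ?_)
      (Filter.Eventually.of_forall fun τ => ?_)
    · unfold psi
      fun_prop
    · rw [Real.norm_of_nonneg (by positivity)]
      exact supa_norm hy τ
  exact ⟨_, fun y hy => ⟨hi y hy, integral_mono (hi y hy) hg fun τ => supa_norm hy τ⟩⟩

theorem supb_re_pos {y : ℝ} (hy : |y| ≤ Real.pi / 4) :
    0 < (cc / 4 * Complex.exp (Complex.I * y) : ℂ).re := by
  have h1 : (cc / 4 * Complex.exp (Complex.I * y) : ℂ) =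
      ((cc / 4 : ℝ) : ℂ) * Complex.exp (y * Complex.I) := by
    push_cast
    rw [mul_comm Complex.I]
  rw [h1, Complex.re_ofReal_mul, Complex.exp_ofReal_mul_I_re]
  have h2 := abs_le.1 hy
  have h3 : 0 < Real.cos y := Real.cos_pos_of_mem_Ioo
    ⟨by linarith [Real.pi_pos], by linarith [Real.pi_pos]⟩
  have := cc_pos
  positivity

theorem supb_norm_term {r : ℝ} (v : O) (τ : ℝ) :
    ‖(if v = 0 then 0 else Complex.exp (-(cc * nm v * ((1 + Complex.I * τ) / r))) : ℂ)‖ ≤
      Real.exp (-(cc / r * nm v)) := by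
  split_ifs
  · rw [norm_zero]
    positivity
  · rw [Complex.norm_exp]
    refine le_of_eq (congrArg _ ?_)
    have : (-(cc * nm v * ((1 + Complex.I * τ) / r)) : ℂ) =
        ((-(cc / r * nm v) : ℝ) : ℂ) * (1 + Complex.I * τ) := by
      push_cast
      ring
    rw [this, Complex.re_ofReal_mul]
    simp

theorem supb_continuous_term {r : ℝ} (v : O) : Continuous fun τ : ℝ =>
    (if v = 0 then 0 else Complex.exp (-(cc * nm v * ((1 + Complex.I * τ) / r))) : ℂ) := by
  split_ifs
  · exact continuous_const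
  · fun_prop

theorem supb_integrable_th {r : ℝ} (hr : 0 < r) {b : ℂ} (hb : 0 < b.re) :
    Integrable fun τ : ℝ => th ((1 + Complex.I * τ) / r) * psi b τ := by
  have hs := summable_exp (x := cc / r) (div_pos cc_pos hr)
  have hc : Continuous fun τ : ℝ => th ((1 + Complex.I * τ) / r) :=
    continuous_tsum (fun v => supb_continuous_term v) hs fun v τ => supb_norm_term v τ
  refine (integrable_psi hb).bdd_mul (c := ∑' v : O, Real.exp (-(cc / r * nm v)))
    hc.aestronglyMeasurable (Filter.Eventually.of_forall fun τ => ?_)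
  exact tsum_of_norm_bounded hs.hasSum fun v => supb_norm_term v τ

theorem supb_exp (u : ℂ) :
    ((Real.exp (u.re / 2) : ℝ) : ℂ) * Complex.exp (Complex.I * u.im / 2) = Complex.exp (u / 2) := by
  rw [Complex.ofReal_exp, ← Complex.exp_add]
  congr 1
  conv_rhs => rw [← Complex.re_add_im u]
  push_cast
  ring

/-- `r = exp (Re u / 2)`, `b = (cc/4) e^{i Im u}`, `y = cc N(v) / r` in `integral_psi`;
`integral_tsum` / `hasSum_integral_of_summable_integral_norm` -/
theorem ThC_eq {u : ℂ} (hu : |u.im| ≤ Real.pi / 4) :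
    ThC u = ∫ τ : ℝ, th ((1 + Complex.I * τ) / (Real.exp (u.re / 2) : ℝ)) *
      psi (cc / 4 * Complex.exp (Complex.I * u.im)) τ := by
  set r := Real.exp (u.re / 2) with hr
  have hr0 : 0 < r := Real.exp_pos _
  set b : ℂ := cc / 4 * Complex.exp (Complex.I * u.im) with hb
  have hb0 : 0 < b.re := supb_re_pos hu
  have hψ := integrable_psi hb0
  have hs := summable_exp (x := cc / r) (div_pos cc_pos hr0)
  have : Countable O := Set.countable_univ_iff.1
    (hs.countable_support.mono fun v _ => (Real.exp_pos _).ne')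
  have hint : ∀ v : O, Integrable fun τ : ℝ =>
      (if v = 0 then 0 else Complex.exp (-(cc * nm v * ((1 + Complex.I * τ) / r))) : ℂ) *
        psi b τ := fun v =>
    hψ.bdd_mul (supb_continuous_term v).aestronglyMeasurable
      (Filter.Eventually.of_forall fun τ => supb_norm_term v τ)
  have hsum : Summable fun v : O => ∫ τ : ℝ,
      ‖(if v = 0 then 0 else Complex.exp (-(cc * nm v * ((1 + Complex.I * τ) / r))) : ℂ) *
        psi b τ‖ := by
    refine Summable.of_nonneg_of_le (fun v => integral_nonneg fun τ => norm_nonneg _)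
      (fun v => ?_) (hs.mul_right (∫ τ : ℝ, ‖psi b τ‖))
    rw [← integral_const_mul]
    refine integral_mono (hint v).norm (hψ.norm.const_mul _) fun τ => ?_
    dsimp only
    rw [norm_mul]
    exact mul_le_mul_of_nonneg_right (supb_norm_term v τ) (norm_nonneg _)
  have h := (hasSum_integral_of_summable_integral_norm hint hsum).tsum_eq
  simp only [tsum_mul_right] at h
  unfold ThC th
  rw [← h]
  refine tsum_congr fun v => ?_
  split_ifs with hv
  · simp
  · have h1 := integral_psi hb0 (cc * nm v / r)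
    have h2 : ∀ τ : ℝ, (-(cc * nm v * ((1 + Complex.I * τ) / r)) : ℂ) =
        -(((cc * nm v / r : ℝ) : ℂ) * (1 + Complex.I * τ)) := by
      intro τ
      push_cast
      ring
    simp_rw [h2]
    rw [h1]
    congr 2
    have h3 : Complex.exp u = (r : ℂ) ^ 2 * Complex.exp (Complex.I * u.im) := by
      rw [hr, Complex.ofReal_exp, ← Complex.exp_nat_mul, ← Complex.exp_add]
      congr 1
      conv_lhs => rw [← Complex.re_add_im u]
      push_cast
      ring
    have h4 : (cc : ℂ) ≠ 0 := by exact_mod_cast cc_pos.ne'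
    have h5 : (r : ℂ) ≠ 0 := by exact_mod_cast hr0.ne'
    have h6 := Complex.exp_ne_zero (Complex.I * u.im)
    rw [Complex.exp_neg, h3, hb]
    push_cast
    field_simp

/-- `integral_psi_inv`: `r (4 π b)^(1/2) / 2 = kp e^{u/2}` (`4 π b = π cc e^{i Im u}`,
`Complex.exp_log`-type computation, `|Im u| < π`); then `norm_th_sub` at `z = (1+iτ)/r`
(`‖z‖ / Re z = ‖1+iτ‖ ≤ 1 + |τ|`) and `psi_moment`.  Integrability of `th(..) psi`: it is
continuous or a.e.-measurable as a `tsum`, or subtract: use `hasSum_integral…` again. -/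
theorem norm_ThC_sub : ∃ C : ℝ, ∀ u : ℂ, |u.im| ≤ Real.pi / 4 →
    ‖ThC u - kp * Complex.exp (u / 2)‖ ≤ C := by
  obtain ⟨C₁, hC₁, h₁⟩ := norm_th_sub
  obtain ⟨C₂, h₂⟩ := psi_moment
  refine ⟨(1 + C₁) * C₂, fun u hu => ?_⟩
  obtain ⟨h₃, h₄⟩ := h₂ u.im hu
  rw [ThC_eq hu]
  set r := Real.exp (u.re / 2) with hr
  have hr0 : 0 < r := Real.exp_pos _
  set b : ℂ := cc / 4 * Complex.exp (Complex.I * u.im) with hb
  have hb0 : 0 < b.re := supb_re_pos hu
  have hψ := integrable_psi hb0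
  have hne : ∀ τ : ℝ, (1 + Complex.I * τ : ℂ) ≠ 0 := fun τ h => by
    simpa using congrArg Complex.re h
  have hle : ∀ τ : ℝ, 1 ≤ ‖(1 + Complex.I * τ : ℂ)‖ := fun τ => by
    simpa using Complex.re_le_norm (1 + Complex.I * τ : ℂ)
  have hle' : ∀ τ : ℝ, ‖(1 + Complex.I * τ : ℂ)‖ ≤ 1 + |τ| := fun τ => by
    simpa using norm_add_le (1 : ℂ) (Complex.I * τ)
  have hinv : Integrable fun τ : ℝ => (1 + Complex.I * τ : ℂ)⁻¹ * psi b τ := by
    refine hψ.bdd_mul (c := 1) (Continuous.aestronglyMeasurable ?_)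
      (Filter.Eventually.of_forall fun τ => ?_)
    · exact Continuous.inv₀ (by fun_prop) hne
    · rw [norm_inv]
      exact inv_le_one_of_one_le₀ (hle τ)
  have hmain : (kp : ℂ) * Complex.exp (u / 2) =
      ∫ τ : ℝ, (r : ℂ) * ((1 + Complex.I * τ : ℂ)⁻¹ * psi b τ) := by
    rw [integral_const_mul, integral_psi_inv hb0]
    set w : ℂ := (Real.sqrt (Real.pi * cc) : ℝ) * Complex.exp (Complex.I * u.im / 2) with hw
    have hpc : 0 < Real.pi * cc := mul_pos Real.pi_pos cc_pos
    have hw0 : 0 < w.re := by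
      have h1 : Complex.I * u.im / 2 = ((u.im / 2 : ℝ) : ℂ) * Complex.I := by
        push_cast
        ring
      rw [hw, Complex.re_ofReal_mul, h1, Complex.exp_ofReal_mul_I_re]
      have h2 := abs_le.1 hu
      have h3 : 0 < Real.cos (u.im / 2) := Real.cos_pos_of_mem_Ioo
        ⟨by linarith [Real.pi_pos], by linarith [Real.pi_pos]⟩
      positivity
    have hw2 : (Real.pi / (4 * b)⁻¹ : ℂ) = w ^ 2 := by
      rw [hw, mul_pow, ← Complex.ofReal_pow, Real.sq_sqrt hpc.le, ← Complex.exp_nat_mul, hb,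
        div_inv_eq_mul]
      have : ((2 : ℕ) : ℂ) * (Complex.I * u.im / 2) = Complex.I * u.im := by
        push_cast
        ring
      rw [this]
      push_cast
      ring
    rw [hw2, one_div, Complex.sq_cpow_two_inv hw0, hw, ← supb_exp, ← hr, kp]
    push_cast
    ring
  rw [hmain, ← integral_sub (supb_integrable_th hr0 hb0) (hinv.const_mul _)]
  calc _ ≤ ∫ τ : ℝ, (1 + C₁) * ((1 + |τ|) * ‖psi b τ‖) := by
        refine norm_integral_le_of_norm_le (h₃.const_mul _)
          (Filter.Eventually.of_forall fun τ => ?_)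
        have hz : ((1 + Complex.I * τ) / r : ℂ).re = r⁻¹ := by
          rw [Complex.div_ofReal_re]
          simp
        have h5 := h₁ ((1 + Complex.I * τ) / r) (by rw [hz]; positivity)
        rw [hz, norm_div, Complex.norm_real, Real.norm_of_nonneg hr0.le, div_inv_eq_mul,
          div_mul_cancel₀ _ hr0.ne', inv_div] at h5
        rw [← mul_assoc, ← sub_mul, norm_mul, ← mul_assoc, ← div_eq_mul_inv]
        refine mul_le_mul_of_nonneg_right (h5.trans ?_) (norm_nonneg _)
        have h6 := hle' τ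
        have h7 := abs_nonneg τ
        nlinarith
    _ = (1 + C₁) * ∫ τ : ℝ, (1 + |τ|) * ‖psi b τ‖ := integral_const_mul _ _
    _ ≤ (1 + C₁) * C₂ := by gcongr

end Crest.Agent.R17.E
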